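import Vale.Agent.P281Z.Hm.MCalc
import Mathlib.Analysis.Complex.LocallyUniformLimit
import Mathlib.Analysis.Complex.Schwarz
import Mathlib.Analysis.Complex.AbsMax

/-!
# Limits along ultrafilters: Arzela-Ascoli, Montel, Hurwitz
-/

set_option linter.unusedSectionVars false

open scoped Matrix.Norms.Operator Topology
open Filter Set Metric Matrix

noncomputable section

namespace Vale.Agent.P275KR

open Vale.Agent.P281Z.Hm

variable {ι : Type*}

/-- **Arzela-Ascoli** along an ultrafilter. -/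
theorem ascoli {X F : Type*} [TopologicalSpace X] [NormedAddCommGroup F] [ProperSpace F]
    (𝒰 : Ultrafilter ι) {f : ι → X → F} {U : Set X}
    (hb : ∀ x ∈ U, ∃ C, ∀ᶠ j in (𝒰 : Filter ι), ‖f j x‖ ≤ C)
    (he : ∀ x ∈ U, ∀ ε > 0, ∃ t ∈ 𝓝[U] x, ∀ᶠ j in (𝒰 : Filter ι), ∀ y ∈ t,
      dist (f j y) (f j x) ≤ ε) :
    ∃ g : X → F, TendstoLocallyUniformlyOn f g 𝒰 U ∧ ContinuousOn g U := by
  have hl : ∀ x, ∃ y, x ∈ U → Tendsto (fun j => f j x) 𝒰 (𝓝 y) := fun x => by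
    by_cases hx : x ∈ U
    · obtain ⟨C, hC⟩ := hb x hx
      obtain ⟨y, -, hy⟩ := (isCompact_closedBall (0 : F) C).ultrafilter_le_nhds
        (𝒰.map fun j => f j x) (le_principal_iff.2 (hC.mono fun j hj => by simpa using hj))
      exact ⟨y, fun _ => hy⟩
    · exact ⟨0, fun h => absurd h hx⟩
  choose g hg using hl
  have hc : ∀ x ∈ U, ∀ ε > 0, ∃ t ∈ 𝓝[U] x, (∀ y ∈ t, dist (g y) (g x) ≤ ε) ∧
      ∀ᶠ j in (𝒰 : Filter ι), ∀ y ∈ t, dist (f j y) (f j x) ≤ ε := fun x hx ε hε => by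
    obtain ⟨t, ht, h⟩ := he x hx ε hε
    exact ⟨t ∩ U, inter_mem ht self_mem_nhdsWithin, fun y hy =>
      le_of_tendsto ((hg y hy.2).dist (hg x hx)) (h.mono fun j hj => hj y hy.1),
      h.mono fun j hj y hy => hj y hy.1⟩
  refine ⟨g, Metric.tendstoLocallyUniformlyOn_iff.2 fun ε hε x hx => ?_, fun x hx => ?_⟩
  · obtain ⟨t, ht, h1, h2⟩ := hc x hx (ε / 4) (by positivity)
    refine ⟨t, ht, ?_⟩
    filter_upwards [h2, Metric.tendsto_nhds.1 (hg x hx) (ε / 4) (by positivity)] with j a b y hy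
    have := dist_triangle4 (g y) (g x) (f j x) (f j y)
    rw [dist_comm (g x), dist_comm (f j x) (f j y)] at this
    linarith [h1 y hy, a y hy]
  · refine Metric.tendsto_nhds.2 fun ε hε => ?_
    obtain ⟨t, ht, h1, -⟩ := hc x hx (ε / 2) (by positivity)
    filter_upwards [ht] with y hy
    linarith [h1 y hy]

/-- The version with a modulus of continuity (Lipschitz or Hoelder bounds). -/
theorem ascoli_mod {X F : Type*} [PseudoMetricSpace X] [NormedAddCommGroup F] [ProperSpace F]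
    (𝒰 : Ultrafilter ι) {f : ι → X → F} {U : Set X} {C : ℝ} {w : ℝ → ℝ}
    (hw : Tendsto w (𝓝[≥] 0) (𝓝 0))
    (hb : ∀ᶠ j in (𝒰 : Filter ι), ∀ x ∈ U, ‖f j x‖ ≤ C ∧
      ∀ y ∈ U, dist (f j y) (f j x) ≤ w (dist y x)) :
    ∃ g : X → F, TendstoLocallyUniformlyOn f g 𝒰 U ∧ ContinuousOn g U := by
  refine ascoli 𝒰 (fun x hx => ⟨C, hb.mono fun j hj => (hj x hx).1⟩) fun x hx ε hε => ?_
  have h1 : Tendsto (fun y => dist y x) (𝓝[U] x) (𝓝[≥] 0) :=
    tendsto_nhdsWithin_iff.2 ⟨(tendsto_iff_dist_tendsto_zero.1 tendsto_id).mono_left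
      nhdsWithin_le_nhds, Eventually.of_forall fun y => dist_nonneg⟩
  refine ⟨_, inter_mem ((hw.comp h1).eventually (gt_mem_nhds hε)) self_mem_nhdsWithin, ?_⟩
  exact hb.mono fun j hj y hy => ((hj x hx).2 y hy.2).trans (le_of_lt hy.1)

/-- **Montel** along an ultrafilter. -/
theorem montel {F : Type*} [NormedAddCommGroup F] [NormedSpace ℂ F] [ProperSpace F]
    (𝒰 : Ultrafilter ι) {f : ι → ℂ → F} {U : Set ℂ} (hU : IsOpen U)
    (hf : ∀ x ∈ U, ∃ r > 0, ∃ C, ∀ᶠ j in (𝒰 : Filter ι),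
      DifferentiableOn ℂ (f j) (ball x r) ∧ ∀ y ∈ ball x r, ‖f j y‖ ≤ C) :
    ∃ g : ℂ → F, TendstoLocallyUniformlyOn f g 𝒰 U ∧ DifferentiableOn ℂ g U := by
  obtain ⟨g, hg, -⟩ := ascoli 𝒰 (f := f) (U := U) (fun x hx => by
    obtain ⟨r, hr, C, h⟩ := hf x hx
    exact ⟨C, h.mono fun j hj => hj.2 x (mem_ball_self hr)⟩) fun x hx ε hε => by
    obtain ⟨r, hr, C, h⟩ := hf x hx
    have t : Tendsto (fun y => 2 * C / r * dist y x) (𝓝 x) (𝓝 0) := by
      simpa using (tendsto_iff_dist_tendsto_zero.1 (tendsto_id (x := 𝓝 x))).const_mul (2 * C / r)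
    refine ⟨_, mem_nhdsWithin_of_mem_nhds (inter_mem (t.eventually (gt_mem_nhds hε))
      (ball_mem_nhds x hr)), h.mono fun j hj y hy => le_trans ?_ (le_of_lt hy.1)⟩
    refine Complex.dist_le_div_mul_dist_of_mapsTo_ball hj.1 (fun w hw => ?_) hy.2
    have := norm_sub_le (f j w) (f j x)
    rw [mem_closedBall, dist_eq_norm]
    linarith [hj.2 w hw, hj.2 x (mem_ball_self hr)]
  refine ⟨g, hg, fun x hx => ?_⟩
  obtain ⟨r, hr, C, h⟩ := hf x hx
  have o : IsOpen (U ∩ ball x r) := hU.inter isOpen_ball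
  exact (((hg.mono inter_subset_left).differentiableOn
    (h.mono fun j hj => hj.1.mono inter_subset_right) o).differentiableAt
      (o.mem_nhds ⟨hx, mem_ball_self hr⟩)).differentiableWithinAt

/-- Montel with one bound. -/
theorem montel' {F : Type*} [NormedAddCommGroup F] [NormedSpace ℂ F] [ProperSpace F]
    (𝒰 : Ultrafilter ι) {f : ι → ℂ → F} {U : Set ℂ} (hU : IsOpen U) {C : ℝ}
    (hf : ∀ᶠ j in (𝒰 : Filter ι), DifferentiableOn ℂ (f j) U ∧ ∀ y ∈ U, ‖f j y‖ ≤ C) :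
    ∃ g : ℂ → F, TendstoLocallyUniformlyOn f g 𝒰 U ∧ DifferentiableOn ℂ g U :=
  montel 𝒰 hU fun x hx => by
    obtain ⟨r, hr, h⟩ := Metric.isOpen_iff.1 hU x hx
    exact ⟨r, hr, C, hf.mono fun j hj => ⟨hj.1.mono h, fun y hy => hj.2 y (h hy)⟩⟩

/-- **Hurwitz**, local form. -/
theorem hurwitz {U : Set ℂ} (hU : IsOpen U) {l : Filter ι} [l.NeBot] {F : ι → ℂ → ℂ} {g : ℂ → ℂ}
    (hF : TendstoLocallyUniformlyOn F g l U)
    (hd : ∀ᶠ n in l, DifferentiableOn ℂ (F n) U ∧ ∀ z ∈ U, F n z ≠ 0) {b : ℂ} (hb : b ∈ U)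
    (hg : g b = 0) : ∀ᶠ z in 𝓝 b, g z = 0 := by
  have gd := hF.differentiableOn (hd.mono fun _ h => h.1) hU
  refine ((gd.analyticOnNhd hU) b hb).eventually_eq_zero_or_eventually_ne_zero.resolve_right
    fun ne => ?_
  rw [eventually_nhdsWithin_iff] at ne
  obtain ⟨ρ, hρ, h⟩ := nhds_basis_closedBall.eventually_iff.1 (ne.and (hU.mem_nhds hb))
  have hU' : closedBall b ρ ⊆ U := fun z hz => (h hz).2
  obtain ⟨z1, hz1, hm⟩ := (isCompact_sphere b ρ).exists_isMinOn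
    (NormedSpace.sphere_nonempty.2 hρ.le)
    (gd.continuousOn.mono (sphere_subset_closedBall.trans hU')).norm
  have m : 0 < ‖g z1‖ := norm_pos_iff.2 ((h (sphere_subset_closedBall hz1)).1 fun e => by
    rw [mem_singleton_iff.1 e, mem_sphere, dist_self] at hz1
    exact hρ.ne hz1)
  obtain ⟨n, a, d⟩ := ((Metric.tendstoUniformlyOn_iff.1
    ((tendstoLocallyUniformlyOn_iff_forall_isCompact hU).1 hF _ hU' (isCompact_closedBall b ρ))
      (‖g z1‖ / 2) (by positivity)).and hd).exists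
  have i : DiffContOnCl ℂ (fun z => (F n z)⁻¹) (ball b ρ) := by
    refine DifferentiableOn.diffContOnCl ?_
    rw [closure_ball _ hρ.ne']
    exact (d.1.mono hU').inv fun z hz => d.2 z (hU' hz)
  have e := Complex.norm_le_of_forall_mem_frontier_norm_le isBounded_ball i
    (C := (‖g z1‖ / 2)⁻¹) (fun z hz => by
      rw [frontier_ball _ hρ.ne'] at hz
      have h1 := a z (sphere_subset_closedBall hz)
      have h2 : ‖g z1‖ ≤ ‖g z‖ := hm hz
      have h3 := norm_sub_norm_le (g z) (F n z)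
      rw [dist_eq_norm] at h1
      rw [norm_inv]
      exact inv_anti₀ (by positivity) (by linarith)) (subset_closure (mem_ball_self hρ))
  have h5 := a b (mem_closedBall_self hρ.le)
  rw [hg, dist_zero_left] at h5
  rw [norm_inv, inv_le_inv₀ (norm_pos_iff.2 (d.2 b hb)) (by positivity)] at e
  linarith

/-- **Hurwitz** on a connected open set. -/
theorem hurwitz_on {U : Set ℂ} (hU : IsOpen U) (hc : IsPreconnected U) {l : Filter ι} [l.NeBot]
    {F : ι → ℂ → ℂ} {g : ℂ → ℂ} (hF : TendstoLocallyUniformlyOn F g l U)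
    (hd : ∀ᶠ n in l, DifferentiableOn ℂ (F n) U ∧ ∀ z ∈ U, F n z ≠ 0) :
    (∀ z ∈ U, g z = 0) ∨ ∀ z ∈ U, g z ≠ 0 := by
  refine or_iff_not_imp_right.2 fun h => ?_
  push Not at h
  obtain ⟨b, hb, e⟩ := h
  exact ((hF.differentiableOn (hd.mono fun _ h => h.1) hU).analyticOnNhd
    hU).eqOn_zero_of_preconnected_of_eventuallyEq_zero hc hb (hurwitz hU hF hd hb e)

variable {n : Type} [Fintype n] [DecidableEq n]

theorem diffOn_det {f : ℂ → Matrix n n ℂ} {U : Set ℂ} (hU : IsOpen U)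
    (h : DifferentiableOn ℂ f U) : DifferentiableOn ℂ (fun z => (f z).det) U := fun z hz =>
  (an_det (h.analyticOnNhd hU z hz)).differentiableAt.differentiableWithinAt

theorem tendsto_det {U : Set ℂ} {l : Filter ι} {F : ι → ℂ → Matrix n n ℂ} {g : ℂ → Matrix n n ℂ}
    (hF : TendstoLocallyUniformlyOn F g l U) (hg : ContinuousOn g U) :
    TendstoLocallyUniformlyOn (fun j z => (F j z).det) (fun z => (g z).det) l U := by
  rw [tendstoLocallyUniformlyOn_iff_forall_tendsto] at hF ⊢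
  intro x hx
  have c : Continuous fun A : Matrix n n ℂ => A.det := continuous_id.matrix_det
  have a : Tendsto (fun y : ι × ℂ => g y.2) (l ×ˢ 𝓝[U] x) (𝓝 (g x)) := (hg x hx).tendsto.comp tendsto_snd
  exact tendsto_uniformity_iff_dist_tendsto_zero.2 (by
    simpa using ((c.tendsto _).comp a).dist ((c.tendsto _).comp (a.congr_uniformity (hF x hx))))

/-- **Hurwitz for matrices**, local form. -/
theorem hurwitz_det {U : Set ℂ} (hU : IsOpen U) {l : Filter ι} [l.NeBot]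
    {F : ι → ℂ → Matrix n n ℂ} {g : ℂ → Matrix n n ℂ} (hF : TendstoLocallyUniformlyOn F g l U)
    (hd : ∀ᶠ j in l, DifferentiableOn ℂ (F j) U ∧ ∀ z ∈ U, (F j z).det ≠ 0) {b : ℂ} (hb : b ∈ U)
    (hg : (g b).det = 0) : ∀ᶠ z in 𝓝 b, (g z).det = 0 :=
  hurwitz hU (tendsto_det hF (hF.differentiableOn (hd.mono fun _ h => h.1) hU).continuousOn)
    (hd.mono fun _ h => ⟨diffOn_det hU h.1, h.2⟩) hb hg

/-- **Hurwitz for matrices** on a connected open set. -/
theorem hurwitz_det_on {U : Set ℂ} (hU : IsOpen U) (hc : IsPreconnected U) {l : Filter ι} [l.NeBot]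
    {F : ι → ℂ → Matrix n n ℂ} {g : ℂ → Matrix n n ℂ} (hF : TendstoLocallyUniformlyOn F g l U)
    (hd : ∀ᶠ j in l, DifferentiableOn ℂ (F j) U ∧ ∀ z ∈ U, (F j z).det ≠ 0) :
    (∀ z ∈ U, (g z).det = 0) ∨ ∀ z ∈ U, (g z).det ≠ 0 :=
  hurwitz_on hU hc (tendsto_det hF (hF.differentiableOn (hd.mono fun _ h => h.1) hU).continuousOn)
    (hd.mono fun _ h => ⟨diffOn_det hU h.1, h.2⟩)

end Vale.Agent.P275KR
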