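import Vale.Agent.P275KR.Sb
import Vale.Agent.P275DG.Main

/-!
# Gram determinants and adapted frames
-/

set_option linter.unusedSectionVars false

open scoped Matrix.Norms.Operator Topology ComplexOrder ContDiff
open Filter Set Matrix Metric Complex

noncomputable section

namespace Vale.Agent.P275KR

open Vale.Agent.P281Z.Hm Vale.Agent.P275NA Vale.Agent.P275GC Vale.Agent.P275GC.At

section gram

variable {n p o : Type} [Fintype n] [DecidableEq n] [Fintype p] [DecidableEq p] [Fintype o]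
  [DecidableEq o]

/-- the Gram determinant -/
def Gd (k : Mx n) (t : Matrix n p ℂ) : ℝ := (tᴴ * k * t).det.re

theorem Gd_pos {k : Mx n} {t : Matrix n p ℂ} (hk : k.PosDef) (ht : Function.Injective t.mulVec) :
    0 < Gd k t := P275DG.det_pos (P275DG.pd_gr hk ht)

theorem Gd_mul (k : Mx n) (t : Matrix n p ℂ) (Q : Mx p) : Gd k (t * Q) = normSq Q.det * Gd k t := by
  rw [Gd, P275DG.gr_fac, Matrix.det_mul, Matrix.det_mul, det_conjTranspose, mul_right_comm, Gd, ← re_ofReal_mul,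
    normSq_eq_conj_mul_self]
  rfl

theorem Gd_tr (k : Mx n) (g : Matrix n o ℂ) (t : Matrix o p ℂ) :
    Gd k (g * t) = Gd (gᴴ * k * g) t := by
  simp only [Gd, conjTranspose_mul, Matrix.mul_assoc]

theorem Gd_sub (k : Mx n) (t : Matrix n p ℂ) (e : o ≃ p) : Gd k (t.submatrix id e) = Gd k t := by
  rw [Gd, Gd, ← det_submatrix_equiv_self e]
  rfl

theorem cd_Gd {k : ℂ → Mx n} {t : ℂ → Matrix n p ℂ} {z : ℂ} {d : WithTop ℕ∞}
    (hk : ContDiffAt ℝ d k z) (ht : AnalyticAt ℂ t z) :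
    ContDiffAt ℝ d (fun w => Gd (k w) (t w)) z :=
  P275HK.cd_re (P275HK.cd_det (P275DG.cd_gr hk ht))

theorem an_fc {s : ℂ → Matrix n p ℂ} {t : ℂ → Matrix n o ℂ} {z : ℂ} (hs : AnalyticAt ℂ s z)
    (ht : AnalyticAt ℂ t z) : AnalyticAt ℂ (fun w => fromCols (s w) (t w)) z := an_of fun a b => by
  rcases b with b | b
  · exact an_ent hs a b
  · exact an_ent ht a b

theorem rg_mul_of_rinv (t : Matrix n p ℂ) {P : Matrix p o ℂ} {P' : Matrix o p ℂ} (h : P * P' = 1) :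
    rg (t * P) = rg t := by
  refine le_antisymm ((rg_mul _ _).trans_le LinearMap.map_le_range) ?_
  rintro _ ⟨v, rfl⟩
  exact ⟨P' *ᵥ v, by rw [mulVecLin_apply, mulVec_mulVec, Matrix.mul_assoc, h, Matrix.mul_one]; rfl⟩

end gram

variable {m n r s s' q : ℕ} {z : ℂ}

/-- the columns of `S` are a basis of `K`, the columns of `S` and `T` are a basis of `V` -/
structure Ad (K V : Sp n) (S : Mr n s) (T : Mr n q) : Prop where
  inj : Function.Injective (fromCols S T).mulVec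
  rK : rg S = K
  rV : rg (fromCols S T) = V

namespace Ad

variable {K V : Sp n} {S S₂ : Mr n s} {T T₂ : Mr n q} {K' V' : Sp m} {S' S₂' : Mr m s'}
  {T' : Mr m q} {u : Mr m n}

theorem sep (h : Ad K V S T) {x : Fin s → ℂ} {y : Fin q → ℂ} (e : S *ᵥ x + T *ᵥ y = 0) :
    x = 0 ∧ y = 0 := by
  have := h.inj (a₁ := Sum.elim x y) (a₂ := 0) (by rw [fromCols_mulVec_sumElim, e, mulVec_zero])
  exact ⟨funext fun a => congrFun this (.inl a), funext fun a => congrFun this (.inr a)⟩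

theorem injS (h : Ad K V S T) : Function.Injective S.mulVec := fun x y e => sub_eq_zero.1
  (h.sep (x := x - y) (y := 0) (by rw [mulVec_sub, e, sub_self, mulVec_zero, add_zero])).1

theorem mem (h : Ad K V S T) {v : Fin n → ℂ} : v ∈ V ↔ ∃ x y, S *ᵥ x + T *ᵥ y = v := by
  rw [← h.rV]
  exact ⟨fun ⟨w, e⟩ => ⟨w ∘ .inl, w ∘ .inr, by
    rw [← fromCols_mulVec_sumElim, Sum.elim_comp_inl_inr]; exact e⟩,
    fun ⟨x, y, e⟩ => ⟨Sum.elim x y, (fromCols_mulVec_sumElim ..).trans e⟩⟩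

theorem map (h : Ad K V S T) {g : Mn n} (hg : Function.Injective g.mulVecLin) :
    Ad (K.map g.mulVecLin) (V.map g.mulVecLin) (g * S) (g * T) where
  inj x y e := h.inj (hg (by simpa only [← mul_fromCols, ← mulVec_mulVec, mulVecLin_apply] using e))
  rK := by rw [rg_mul, h.rK]
  rV := by rw [← mul_fromCols, rg_mul, h.rV]

theorem inj_iff (h : Ad K V S T) (h' : Ad K' V' S' T') {b : Mr s' q} {D : Mn q}
    (e : u * T = S' * b + T' * D) (h3 : ∀ v ∈ K, u *ᵥ v ∈ K') :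
    (∀ v ∈ V, u *ᵥ v ∈ K' → v ∈ K) ↔ D.det ≠ 0 := by
  have a : ∀ y, u *ᵥ (T *ᵥ y) = S' *ᵥ (b *ᵥ y) + T' *ᵥ (D *ᵥ y) := fun y => by
    simp only [mulVec_mulVec, e, add_mulVec]
  refine ⟨fun c d => ?_, fun c v hv d => ?_⟩
  · obtain ⟨y, f, f'⟩ := exists_mulVec_eq_zero_iff.2 d
    obtain ⟨x, hx⟩ := h.rK ▸ c (T *ᵥ y) (h.mem.2 ⟨0, y, by simp⟩) (by
      rw [a, f', mulVec_zero, add_zero, ← h'.rK]
      exact ⟨_, rfl⟩)
    exact f (h.sep (x := -x) (y := y) (by rw [mulVec_neg, ← hx]; simp)).2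
  · obtain ⟨x, y, rfl⟩ := h.mem.1 hv
    rw [mulVec_add, Submodule.add_mem_iff_right _ (h3 _ (h.rK ▸ ⟨x, rfl⟩)), a, ← h'.rK] at d
    obtain ⟨w, hw⟩ := d
    have f := (h'.sep (x := b *ᵥ y - w) (y := D *ᵥ y) (by
      rw [mulVec_sub, sub_add_eq_add_sub, ← hw]; simp)).2
    rw [eq_zero_of_mulVec_eq_zero c f, mulVec_zero, add_zero, ← h.rK]
    exact ⟨x, rfl⟩

end Ad

/-- the square of the norm of the determinant of the map `V / K → V' / K'` -/
def val (k : Mn n) (k' : Mn m) (u : Mr m n) (S : Mr n s) (T : Mr n q) (S' : Mr m s') : ℝ :=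
  Gd k' (fromCols S' (u * T)) * Gd k S / (Gd k' S' * Gd k (fromCols S T))

theorem val_eq {K V : Sp n} {S S₂ : Mr n s} {T T₂ : Mr n q} {S' S₂' : Mr m s'} {u : Mr m n}
    (k : Mn n) (k' : Mn m) (h : Ad K V S T) (h₂ : Ad K V S₂ T₂)
    (i₂ : Function.Injective S₂'.mulVec) (e : rg S₂' = rg S') (h3 : ∀ v ∈ K, u *ᵥ v ∈ rg S') :
    val k k' u S₂ T₂ S₂' = val k k' u S T S' := by
  obtain ⟨a, rfl⟩ := P275DG.ex_fac (s := S₂) (t := S) fun v => h.rK.ge (h₂.rK.le ⟨v, rfl⟩)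
  obtain ⟨Y, hY⟩ := P275DG.ex_fac (s := T₂) (t := fromCols S T) fun v =>
    h.rV.ge (h₂.mem.2 ⟨0, v, by simp⟩)
  obtain ⟨a', rfl⟩ := P275DG.ex_fac (s := S₂') (t := S') fun v => e.le ⟨v, rfl⟩
  obtain ⟨c, hc⟩ := P275DG.ex_fac (s := u * S) (t := S') fun v => by
    rw [← mulVec_mulVec]; exact h3 _ (h.rK.le ⟨v, rfl⟩)
  rw [← fromRows_toRows Y, fromCols_mul_fromRows] at hY
  have e1 : fromCols (S * a) T₂ = fromCols S T * fromBlocks a Y.toRows₁ 0 Y.toRows₂ := by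
    rw [fromCols_mul_fromBlocks, hY, Matrix.mul_zero, add_zero]
  have e2 : fromCols (S' * a') (u * T₂) =
      fromCols S' (u * T) * fromBlocks a' (c * Y.toRows₁) 0 Y.toRows₂ := by
    rw [fromCols_mul_fromBlocks, hY, Matrix.mul_zero, add_zero, Matrix.mul_add, ← Matrix.mul_assoc,
      hc, Matrix.mul_assoc, Matrix.mul_assoc]
  have d1 := P275DG.det_fac h₂.inj e1
  rw [det_fromBlocks_zero₂₁] at d1
  have d2 := (normSq_pos.2 (left_ne_zero_of_mul d1)).ne'
  have d3 := (normSq_pos.2 (right_ne_zero_of_mul d1)).ne'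
  have d4 := (normSq_pos.2 (P275DG.det_fac i₂ rfl)).ne'
  rw [val, val, e1, e2, Gd_mul, Gd_mul, Gd_mul, Gd_mul, det_fromBlocks_zero₂₁,
    det_fromBlocks_zero₂₁, map_mul, map_mul, eq_comm, ← mul_div_mul_left _ _ (mul_ne_zero d2
      (mul_ne_zero d3 d4))]
  refine congrArg₂ _ ?_ ?_ <;> ring

theorem val_tr (k g : Mn n) (k' g' : Mn m) {u u' : Mr m n} {l : ℂ} (e : u * g = l • (g' * u'))
    (S : Mr n s) (T : Mr n q) (S' : Mr m s') : val k k' u (g * S) (g * T) (g' * S') =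
      normSq l ^ q * val (gᴴ * k * g) (g'ᴴ * k' * g') u' S T S' := by
  have a : fromCols (g' * S') (u * (g * T)) =
      g' * (fromCols S' (u' * T) * fromBlocks (1 : Mn s') 0 0 (l • (1 : Mn q))) := by
    rw [fromCols_mul_fromBlocks, mul_fromCols, ← Matrix.mul_assoc, e]
    simp [Matrix.mul_assoc]
  rw [val, val, a, ← mul_fromCols, Gd_tr k g, Gd_tr k g, Gd_tr k' g', Gd_tr k' g', Gd_mul,
    det_fromBlocks_zero₂₁]
  simp [mul_div_assoc, mul_assoc]

theorem val_fac (k : Mn n) (k' : Mn m) {u : Mr m n} (S : Mr n s) {T : Mr n q} {S' : Mr m s'}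
    {T' : Mr m q} {b : Mr s' q} {D : Mn q} (e : u * T = S' * b + T' * D) : val k k' u S T S' =
      normSq D.det * (Gd k' (fromCols S' T') * Gd k S / (Gd k' S' * Gd k (fromCols S T))) := by
  have a : fromCols S' (u * T) = fromCols S' T' * fromBlocks 1 b 0 D := by
    rw [fromCols_mul_fromBlocks, e]
    simp
  rw [val, a, Gd_mul, det_fromBlocks_zero₂₁, det_one, one_mul, mul_assoc, mul_div_assoc]

theorem exists_ad {K V : ℂ → Sp n} {S : ℂ → Mr n s} {t : ℂ → Mr n r} (hK : FrAt K S z)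
    (hV : FrAt V t z) (le : ∀ᶠ w in 𝓝 z, K w ≤ V w) (e : s + q = r) :
    ∃ T : ℂ → Mr n q, AnalyticAt ℂ T z ∧ ∀ᶠ w in 𝓝 z, Ad (K w) (V w) (S w) (T w) := by
  obtain ⟨t', a1, a2⟩ := an_linv hV.an hV.inj
  obtain ⟨S', b1, b2⟩ := an_linv hK.an hK.inj
  have c : ∀ᶠ w in 𝓝 z, t w * (t' w * S w) = S w := by
    filter_upwards [a2, le, hK.rg, hV.rg] with w x y y1 y2
    exact eq_mul_of_le x (y1.trans_le (y.trans y2.ge))
  obtain ⟨p, τ, τ', c1, -, c3⟩ := exists_blk (T := fun w => t' w * S w) (T' := fun w => S' w * t w)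
    (an_mul a1 hK.an) (an_mul b1 hV.an) ((c.and b2).mono fun w x => by
      rw [Matrix.mul_assoc, x.1, x.2])
  obtain rfl : p = q := by have := c3.self_of_nhds.card; simp at this; omega
  refine ⟨fun w => t w * τ w, an_mul hV.an c1, ?_⟩
  filter_upwards [c, c3, a2, hK.rg, hV.rg] with w x y y0 y1 y2
  have f : fromCols (S w) (t w * τ w) = t w * fromCols (t' w * S w) (τ w) := by
    rw [mul_fromCols, x]
  refine ⟨inj_of_linv (L := fromRows (S' w * t w) (τ' w) * t' w) ?_, y1, ?_⟩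
  · rw [f, Matrix.mul_assoc, ← Matrix.mul_assoc (t' w), y0, Matrix.one_mul, y.symm.rows_cols]
  · rw [f, rg_mul_of_rinv _ y.symm.cols_rows]
    exact y2

variable {C : Type} [TopologicalSpace C] {A : At C} {i : Fin A.N} {g : Cy A (Mn n)}

theorem cvS_Gd {ι : Type} [Fintype ι] [DecidableEq ι] {k : Fm A (Mn n)} {S : Fm A (Sp n)}
    (hk : A.MtM ∞ g k) (hz : z ∈ ball (0 : ℂ) A.R) {P : ℂ → Matrix (Fin n) ι ℂ}
    (h1 : AnalyticAt ℂ P z) (h2 : Function.Injective (P z).mulVec)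
    (h3 : ∀ᶠ w in 𝓝 z, rg (P w) = S i w) (h4 : Fintype.card ι = r) :
    cvS A r k S i z = -lp (fun w => Real.log (Gd (k i w) (P w))) z := by
  let e : Fin r ≃ ι := (Fintype.equivFinOfCardEq h4).symm
  obtain ⟨L, hL⟩ := exists_linv h2
  rw [P275DG.cvS_lp hk hz (t := fun w => (P w).submatrix id e) ⟨an_of fun a b => an_ent h1 a _,
    inj_of_linv (L := L.submatrix e id) (by
      rw [← submatrix_mul _ _ _ _ _ Function.bijective_id, hL, submatrix_one_equiv]),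
    h3.mono fun w x => ?_⟩]
  · simp only [← Gd_sub _ _ e]
    rfl
  · rw [← x, range_mulVecLin, rg, range_mulVecLin]
    exact congrArg _ (EquivLike.range_comp (P w).col e)

end Vale.Agent.P275KR
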