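import Vale.Agent.P275KR.Sb
import Vale.Agent.P275GC.Pl

/-!
# Counting zeros
-/

set_option linter.unusedSectionVars false

open scoped Topology
open Filter Set Metric Complex

noncomputable section

namespace Vale.Agent.P275KR

open Vale.Agent.P275NA Vale.Agent.P275GC Vale.Agent.P275GC.At

/-- `v` vanishes to the order `2 k` at `z` -/
def Od (v : ℂ → ℝ) (z : ℂ) (k : ℕ) : Prop := ∃ p : ℂ → ℝ, ContinuousAt p z ∧ 0 < p z ∧
  ∀ᶠ w in 𝓝 z, v w = ‖w - z‖ ^ (2 * k) * p w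

variable {v : ℂ → ℝ} {z : ℂ} {k l : ℕ}

theorem Od.le (h : Od v z k) (h' : Od v z l) : l ≤ k := by
  by_contra n
  obtain ⟨j, rfl⟩ := Nat.exists_eq_add_of_lt (not_le.1 n)
  obtain ⟨p, a, b, c⟩ := h
  obtain ⟨q, d, -, e⟩ := h'
  have := eq_of_punct (g := fun w => ‖w - z‖ ^ (2 * (j + 1)) * q w) a
    (((continuousAt_id.sub continuousAt_const).norm.pow _).mul d) (by
      filter_upwards [(c.and e).filter_mono nhdsWithin_le_nhds, self_mem_nhdsWithin] with w x y
      refine mul_left_cancel₀ (pow_ne_zero (2 * k) (norm_ne_zero_iff.2 (sub_ne_zero.2 y))) ?_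
      rw [← x.1, x.2]
      ring)
  simp at this
  exact b.ne' this

theorem Od.unique (h : Od v z k) (h' : Od v z l) : k = l := le_antisymm (h'.le h) (h.le h')

theorem Od.zero_iff (h : Od v z k) : k = 0 ↔ v z ≠ 0 := by
  obtain ⟨p, -, b, c⟩ := h
  rw [c.self_of_nhds]
  simp [b.ne']

theorem Od.ev (h : Od v z k) : ∀ᶠ w in 𝓝[≠] z, v w ≠ 0 := by
  obtain ⟨p, a, b, c⟩ := h
  filter_upwards [(c.and (a.eventually_ne b.ne')).filter_mono nhdsWithin_le_nhds,
    self_mem_nhdsWithin] with w x y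
  rw [x.1]
  exact mul_ne_zero (pow_ne_zero _ (norm_ne_zero_iff.2 (sub_ne_zero.2 y))) x.2

theorem Od.comp {τ : ℂ → ℂ} {u : ℂ → ℝ} (h : Od v (τ z) k) (hτ : DifferentiableAt ℂ τ z)
    (h0 : deriv τ z ≠ 0) (e : ∀ᶠ w in 𝓝 z, u w = v (τ w)) : Od u z k := by
  obtain ⟨p, a, b, c⟩ := h
  refine ⟨fun w => ‖dslope τ z w‖ ^ (2 * k) * p (τ w),
    ((continuousAt_dslope_same.2 hτ).norm.pow _).mul (a.comp hτ.continuousAt),
    mul_pos (pow_pos (norm_pos_iff.2 (by rwa [dslope_same])) _) b, ?_⟩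
  filter_upwards [e, hτ.continuousAt.eventually c] with w x y
  rw [x, y, ← sub_smul_dslope τ z w, norm_smul, mul_pow, mul_assoc]

variable {C : Type} [TopologicalSpace C]

/-- the integral of the curvature counts the zeros -/
theorem pln [T2Space C] {A : At C} {β v : Fm A ℝ} (h3 : A.Fn v)
    (h4 : ∀ i, ∀ z ∈ ball (0 : ℂ) A.R, ∃ (f : ℂ → ℂ) (p : ℂ → ℝ), AnalyticAt ℂ f z ∧
      (∀ᶠ w in 𝓝[≠] z, f w ≠ 0) ∧ ContDiffAt ℝ 2 p z ∧ 0 < p z ∧
      β i z = lp (fun w => Real.log (p w)) z ∧ ∀ᶠ w in 𝓝 z, v i w = normSq (f w) * p w) :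
    ∃ N : ℕ, A.int β = -Real.pi * N ∧ (N = 0 ↔ ∀ i, ∀ z ∈ ball (0 : ℂ) A.R, v i z ≠ 0) := by
  have a : ∀ i, ∀ z ∈ ball (0 : ℂ) A.R, ∃ (k : ℕ) (p : ℂ → ℝ), ContDiffAt ℝ 2 p z ∧ 0 < p z ∧
      β i z = lp (fun w => Real.log (p w)) z ∧ ∀ᶠ w in 𝓝 z, v i w = ‖w - z‖ ^ (2 * k) * p w := by
    intro i z hz
    obtain ⟨f, p, a1, a2, a3, a4, a5, a6⟩ := h4 i z hz
    obtain ⟨k, f1, b1, b2, b3⟩ := a1.exists_eventuallyEq_pow_smul_nonzero_iff.2 fun e => by
      obtain ⟨w, c, d⟩ := (a2.and (e.filter_mono nhdsWithin_le_nhds)).exists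
      exact c d
    have c1 : ContDiffAt ℝ 2 (fun w => normSq (f1 w)) z := cd_nsq (cd_an b1)
    have c2 : 0 < normSq (f1 z) := normSq_pos.2 b2
    refine ⟨k, fun w => normSq (f1 w) * p w, c1.mul a3, mul_pos c2 a4, ?_, ?_⟩
    · rw [a5, P275GC.lp_congr (u := fun w => Real.log (normSq (f1 w) * p w))
        (v := fun w => Real.log (normSq (f1 w)) + Real.log (p w)), P275GC.lp_add
        (c1.log c2.ne') (a3.log a4.ne'), lp_log_nsq b1 b2, zero_add]
      filter_upwards [c1.continuousAt.eventually_ne c2.ne', a3.continuousAt.eventually_ne a4.ne']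
        with w x y using Real.log_mul x y
    · filter_upwards [a6, b3] with w x y
      rw [x, y, smul_eq_mul, map_mul, map_pow, normSq_eq_norm_sq (w - z), ← pow_mul, mul_assoc]
  have b : ∀ x, ∃ k, ∀ i, x ∈ (A.e i).source → Od (v i) (A.e i x) k := fun x => by
    obtain ⟨j, hj, -⟩ := A.cov x
    obtain ⟨k, p, a1, a2, -, a3⟩ := a j _ (map_src hj)
    refine ⟨k, fun i hi => Od.comp (v := v j) (τ := A.tr i j) ?_ (df_tr (mem_O hi hj))
      (d_ne (mem_O hi hj)) (eventually_of_mem (O_nhds (mem_O hi hj)) (h3 i j))⟩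
    rw [tr_e hi]
    exact ⟨p, a1.continuousAt, a2, a3⟩
  choose m hm using b
  have hm' : ∀ i, ∀ z ∈ ball (0 : ℂ) A.R, Od (v i) z (m ((A.e i).symm z)) := fun i z hz => by
    have := hm _ i (map_tgt hz)
    rwa [rinv hz] at this
  have f : (Function.support m).Finite := by
    have := A.compactSpace
    obtain ⟨t, -, ht⟩ := isCompact_univ.elim_nhds_subcover (fun x => {y | y = x ∨ m y = 0})
      fun x _ => by
        obtain ⟨i, hi, -⟩ := A.cov x
        filter_upwards [((A.e i).continuousAt hi).eventually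
          (eventually_nhdsWithin_iff.1 (hm x i hi).ev), (A.e i).open_source.mem_nhds hi] with y c d
        exact or_iff_not_imp_left.2 fun e => (hm y i d).zero_iff.2
          (c fun e' => e ((A.e i).injOn d hi e'))
    refine t.finite_toSet.subset fun y hy => ?_
    obtain ⟨x, c, d⟩ := mem_iUnion₂.1 (ht (mem_univ y))
    exact d.resolve_right hy ▸ c
  refine ⟨∑ᶠ x, m x, ?_, ?_⟩
  · rw [(pl' (v := A.gl v) (m := fun x => m x) (f.subset fun x hx e => hx (by simp [e]))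
      fun i z hz => ?_).2.2]
    · rw [← Int.cast_natCast]
      exact congrArg (fun t : ℤ => -Real.pi * (t : ℝ)) (map_finsum (Nat.castRingHom ℤ) f).symm
    · obtain ⟨k, p, a1, a2, a3, a4⟩ := a i z hz
      obtain rfl := (hm' i z hz).unique ⟨p, a1.continuousAt, a2, a4⟩
      refine ⟨p, a1, a2, a3, ?_⟩
      filter_upwards [(a4.and (isOpen_ball.mem_nhds hz)).filter_mono nhdsWithin_le_nhds] with w x
      refine ((h3.pl_gl x.2).trans x.1).trans ?_
      norm_cast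
  · rw [finsum_eq_sum _ f, Finset.sum_eq_zero_iff]
    refine ⟨fun e i z hz => (hm' i z hz).zero_iff.1 (by_contra fun n => n (e _ (f.mem_toFinset.2 n))),
      fun e x _ => ?_⟩
    obtain ⟨i, hi, -⟩ := A.cov x
    exact (hm x i hi).zero_iff.2 (e i _ (map_src hi))

end Vale.Agent.P275KR
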