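import Vale.Agent.P275KR.Gm
import Vale.Agent.P275KR.Pl

/-!
# Degrees of subbundles
-/

set_option linter.unusedSectionVars false

open scoped Matrix.Norms.Operator Topology ComplexOrder ContDiff
open Filter Set Matrix Metric Complex

noncomputable section

namespace Vale.Agent.P275KR

open Vale.Agent.P281Z.Hm Vale.Agent.P275NA Vale.Agent.P275GC Vale.Agent.P275GC.At

variable {C : Type} [TopologicalSpace C] [T2Space C] [ConnectedSpace C] {A : At C} {m n q : ℕ}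
  {i j : Fin A.N} {z : ℂ} {g : Cy A (Mn n)} {g' : Cy A (Mn m)} {hg : A.Cc g} {hg' : A.Cc g'}
  {l : Cy A ℂ} {u : Fm A (Mr m n)}

namespace Sb

theorem ex_ad {K V : Sb hg} (h : K ≤ V) (e : K.r + q = V.r) (i : Fin A.N)
    (hz : z ∈ ball (0 : ℂ) A.R) : ∃ (S : ℂ → Mr n K.r) (T : ℂ → Mr n q), AnalyticAt ℂ S z ∧
      AnalyticAt ℂ T z ∧ ∀ᶠ w in 𝓝 z, Ad (K.S i w) (V.S i w) (S w) (T w) := by
  obtain ⟨S, a⟩ := K.sub.fr i z hz
  obtain ⟨t, b⟩ := V.sub.fr i z hz
  obtain ⟨T, c, d⟩ := exists_ad a b (eventually_of_mem (isOpen_ball.mem_nhds hz) (h i)) e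
  exact ⟨S, T, a.an, c, d⟩

theorem in_cvS (V : Sb hg) : A.In (cvS A V.r (A.mtM g) V.S) := (P275DG.sm_cvS hg.mtM V.sub).ct.in

theorem int_cvS (V : Sb hg) : A.int (cvS A V.r (A.mtM g) V.S) = Real.pi * V.deg := by
  rw [deg, degS, mul_inv_cancel_left₀ Real.pi_ne_zero]

/-- **The degrees of generically isomorphic subquotients.** -/
theorem quot (hl : A.Cc l) (hu : Mor g g' l u) {K V : Sb hg} {K' V' : Sb hg'} (h1 : K ≤ V)
    (h2 : K' ≤ V') (h3 : Into u K K') (h4 : Into u V V') (e1 : K.r + q = V.r)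
    (e2 : K'.r + q = V'.r) (hi : V ⊓ comap hg hu K' ≤ K) :
    ∃ N : ℕ, V.deg - K.deg + N = V'.deg - K'.deg + q * A.deg l ∧ (N = 0 ↔ ∀ i,
      ∀ z ∈ ball (0 : ℂ) A.R, ∀ v ∈ V.S i z, u i z *ᵥ v ∈ K'.S i z → v ∈ K.S i z) := by
  have ex : ∀ i z, ∃ y : ℝ, z ∈ ball (0 : ℂ) A.R → ∀ (S : Mr n K.r) (T : Mr n q) (S' : Mr m K'.r)
      (T' : Mr m q), Ad (K.S i z) (V.S i z) S T → Ad (K'.S i z) (V'.S i z) S' T' →
      val (A.mtM g i z) (A.mtM g' i z) (u i z) S T S' = y := fun i z => by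
    by_cases hz : z ∈ ball (0 : ℂ) A.R
    · obtain ⟨S, T, -, -, a⟩ := ex_ad h1 e1 i hz
      obtain ⟨S', T', -, -, b⟩ := ex_ad h2 e2 i hz
      exact ⟨_, fun _ _ _ _ _ c d => val_eq _ _ a.self_of_nhds c d.injS
        (d.rK.trans b.self_of_nhds.rK.symm) (b.self_of_nhds.rK ▸ h3 i z hz)⟩
    · exact ⟨0, fun h => absurd h hz⟩
  choose y hy using ex
  have loc : ∀ i, ∀ z ∈ ball (0 : ℂ) A.R, ∃ (f : ℂ → ℂ) (p : ℂ → ℝ), AnalyticAt ℂ f z ∧
      ContDiffAt ℝ 2 p z ∧ 0 < p z ∧ q * lp (fun w => Real.log (A.mt l i w)) z +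
        (-cvS A V'.r (A.mtM g') V'.S i z - cvS A K.r (A.mtM g) K.S i z +
          (cvS A K'.r (A.mtM g') K'.S i z + cvS A V.r (A.mtM g) V.S i z)) =
        lp (fun w => Real.log (p w)) z ∧ ∀ᶠ w in 𝓝 z, A.mt l i w ^ q * y i w = normSq (f w) * p w ∧
        ((∀ v ∈ V.S i w, u i w *ᵥ v ∈ K'.S i w → v ∈ K.S i w) ↔ f w ≠ 0) := fun i z hz => by
    obtain ⟨S, T, a1, a2, a⟩ := ex_ad h1 e1 i hz
    obtain ⟨S', T', b1, b2, b⟩ := ex_ad h2 e2 i hz
    obtain ⟨L, c1, c2⟩ := an_linv (an_fc b1 b2) b.self_of_nhds.inj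
    have c3 : AnalyticAt ℂ (fun w => L w * (u i w * T w)) z :=
      an_mul c1 (an_mul (hu.hol.an hz i) a2)
    have k1 := (hg.mtM.sm.at hz i).of_le two_le
    have k2 := (hg'.mtM.sm.at hz i).of_le two_le
    have p1 := hg.mtM.pos i z hz
    have p2 := hg'.mtM.pos i z hz
    have d0 := (hl.mt.sm.at hz i).of_le two_le
    have d1 := cd_Gd k2 (an_fc b1 b2)
    have d2 := cd_Gd k1 a1
    have d3 := cd_Gd k2 b1
    have d4 := cd_Gd k1 (an_fc a1 a2)
    have n0 := hl.mt.pos i z hz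
    have n1 := Gd_pos p2 b.self_of_nhds.inj
    have n2 := Gd_pos p1 a.self_of_nhds.injS
    have n3 := Gd_pos p2 b.self_of_nhds.injS
    have n4 := Gd_pos p1 a.self_of_nhds.inj
    refine ⟨fun w => (L w * (u i w * T w)).toRows₂.det, fun w => A.mt l i w ^ q *
      (Gd (A.mtM g' i w) (fromCols (S' w) (T' w)) * Gd (A.mtM g i w) (S w) /
        (Gd (A.mtM g' i w) (S' w) * Gd (A.mtM g i w) (fromCols (S w) (T w)))),
      an_det (an_of fun s t => an_ent c3 _ t),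
      (d0.pow q).mul ((d1.mul d2).div (d3.mul d4) (mul_pos n3 n4).ne'), by positivity, ?_, ?_⟩
    · have l0 := d0.log n0.ne'
      have l1 := d1.log n1.ne'
      have l2 := d2.log n2.ne'
      have l3 := d3.log n3.ne'
      have l4 := d4.log n4.ne'
      rw [cvS_Gd hg'.mtM hz (an_fc b1 b2) b.self_of_nhds.inj (b.mono fun _ => Ad.rV) (by simpa),
        cvS_Gd hg.mtM hz a1 a.self_of_nhds.injS (a.mono fun _ => Ad.rK) (by simp),
        cvS_Gd hg'.mtM hz b1 b.self_of_nhds.injS (b.mono fun _ => Ad.rK) (by simp),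
        cvS_Gd hg.mtM hz (an_fc a1 a2) a.self_of_nhds.inj (a.mono fun _ => Ad.rV) (by simpa),
        neg_neg, sub_neg_eq_add, ← neg_add, ← sub_eq_add_neg, ← P275GC.lp_add l1 l2,
        ← P275GC.lp_add l3 l4, ← P275GC.lp_sub (l1.add l2) (l3.add l4), ← P275GC.lp_cmul _ l0,
        ← P275GC.lp_add (contDiffAt_const.mul l0) ((l1.add l2).sub (l3.add l4))]
      refine P275GC.lp_congr ?_
      filter_upwards [d0.continuousAt.eventually_ne n0.ne', d1.continuousAt.eventually_ne n1.ne',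
        d2.continuousAt.eventually_ne n2.ne', d3.continuousAt.eventually_ne n3.ne',
        d4.continuousAt.eventually_ne n4.ne'] with w x0 x1 x2 x3 x4
      rw [Real.log_mul (pow_ne_zero _ x0) (div_ne_zero (mul_ne_zero x1 x2) (mul_ne_zero x3 x4)),
        Real.log_div (mul_ne_zero x1 x2) (mul_ne_zero x3 x4), Real.log_mul x1 x2,
        Real.log_mul x3 x4, Real.log_pow]
    · filter_upwards [a, b, c2, isOpen_ball.mem_nhds hz] with w x x' c hw
      have e := eq_mul_of_le (s := u i w * T w) c (by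
        rintro _ ⟨v, rfl⟩
        rw [x'.rV, mulVecLin_apply, ← mulVec_mulVec]
        exact h4 i w hw _ (x.mem.2 ⟨0, v, by simp⟩))
      rw [← fromRows_toRows (L w * (u i w * T w)), fromCols_mul_fromRows, eq_comm] at e
      exact ⟨by rw [← hy i w hw _ _ _ _ x x', val_fac _ _ _ e, mul_left_comm],
        x.inj_iff x' e (h3 i w hw)⟩
  obtain ⟨N, a, b⟩ := pln (A := A) (v := fun i z => A.mt l i z ^ q * y i z) (fun i j z hz => by
      obtain ⟨S, T, -, -, a⟩ := ex_ad h1 e1 j (tr_ball hz)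
      obtain ⟨S', T', -, -, b⟩ := ex_ad h2 e2 j (tr_ball hz)
      have a' := a.self_of_nhds.map (cc_inj hg hz)
      have b' := b.self_of_nhds.map (cc_inj hg' hz)
      rw [← K.tr hz, ← V.tr hz] at a'
      rw [← K'.tr hz, ← V'.tr hz] at b'
      beta_reduce
      rw [← hy i z hz.1 _ _ _ _ a' b', ← hy j _ (tr_ball hz) _ _ _ _ a.self_of_nhds b.self_of_nhds,
        val_tr _ _ _ _ (hu.tr i j z hz), hl.mt.tr i j z hz, hg.mtM.tr i j z hz,
        hg'.mtM.tr i j z hz, mul_pow, mul_left_comm, mul_assoc (normSq _ ^ q)])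
    fun i z hz => by
      obtain ⟨f, p, a1, a2, a3, a4, a5⟩ := loc i z hz
      refine ⟨f, p, a1, ?_, a2, a3, a4, a5.mono fun _ c => c.1⟩
      filter_upwards [(a5.and (isOpen_ball.mem_nhds hz)).filter_mono nhdsWithin_le_nhds,
        inf_ev V (comap hg hu K') i hz, comap_ev (hg := hg) hu K' i hz] with w c d e
      exact c.1.2.1 fun v x1 x2 => hi i w c.2 (by rw [d, e]; exact ⟨x1, x2⟩)
  refine ⟨N, ?_, b.trans (forall₃_congr fun i z hz => ?_)⟩
  · have i0 : A.In fun i z => lp (fun w => Real.log (A.mt l i w)) z := Ct.in fun i z hz =>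
      (P275GC.cd_lp (m := 0) (((hl.mt.sm.at hz i).of_le two_le).log (hl.mt.pos i z hz).ne')
        (by norm_num)).continuousAt.continuousWithinAt
    have d := P275DG.deg_mt hl hl.mt
    rw [int_neg, mul_neg, neg_eq_iff_eq_neg, inv_mul_eq_iff_eq_mul₀ Real.pi_ne_zero] at d
    rw [int_add (fun i => by simpa only [smul_eq_mul, mul_left_comm] using (i0 i).const_mul (q : ℝ))
      ((V'.in_cvS.neg.sub K.in_cvS).add (K'.in_cvS.add V.in_cvS)), int_mul, d,
      int_add (V'.in_cvS.neg.sub K.in_cvS) (K'.in_cvS.add V.in_cvS),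
      int_sub V'.in_cvS.neg K.in_cvS, int_add K'.in_cvS V.in_cvS, int_neg, int_cvS, int_cvS,
      int_cvS, int_cvS] at a
    exact mul_left_cancel₀ Real.pi_ne_zero (by linarith)
  · obtain ⟨f, p, -, -, a3, -, a5⟩ := loc i z hz
    rw [a5.self_of_nhds.1, a5.self_of_nhds.2]
    simp [a3.ne']

theorem deg_bot : (⊥ : Sb hg).deg = 0 := by
  rw [deg, degS, int_congr' (v := fun _ _ => 0) fun i z hz => ?_, int_zero, mul_zero]
  rw [cvS_Gd (r := (⊥ : Sb hg).r) hg.mtM hz (P := fun _ => (0 : Mr n 0)) analyticAt_const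
    (fun _ _ _ => Subsingleton.elim _ _) (eventually_of_mem (isOpen_ball.mem_nhds hz)
      fun w hw => (by simp [rg] : rg (0 : Mr n 0) = ⊥).trans (bot_S hw).symm) rfl]
  simp [Gd, P275GC.lp_const]

theorem deg_top : (⊤ : Sb hg).deg = A.degM g :=
  (of_deg (sub_top hg)).trans ((congrArg _ (int_congr' fun _ _ hz =>
    P275DG.tc_top hg.mtM hz)).trans (P275DG.deg A n g _ hg hg.mtM).2.2.2.1)

theorem deg_one (A : At C) : (A.deg fun _ _ _ => 1) = 0 := by
  rw [← P275DG.deg_mt A.cc_one (h := fun _ _ => 1) ⟨fun _ => contDiffOn_const,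
    fun _ _ _ => one_pos, fun _ _ _ _ => by simp⟩]
  simp [P275GC.lp_const, int_zero]

theorem into_id {V W : Sb hg} : Into (fun _ _ => (1 : Mn n)) V W ↔ V ≤ W := by
  simp only [Into, one_mulVec]
  rfl

theorem comap_id (V : Sb hg) : comap hg (mor_id g) V = V :=
  le_antisymm (into_id.1 (into_comap _ V)) ((le_comap_iff _).2 (into_id.2 le_rfl))

/-- the degree is supermodular -/
theorem deg_sup_inf (V W : Sb hg) : ∃ N : ℕ, V.deg + W.deg + N = (V ⊔ W).deg + (V ⊓ W).deg ∧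
    (N = 0 ↔ ∀ i, ∀ z ∈ ball (0 : ℂ) A.R, (V ⊓ W).S i z = V.S i z ⊓ W.S i z) := by
  obtain ⟨q, e⟩ := Nat.exists_eq_add_of_le (r_mono (inf_le_left (a := V) (b := W)))
  have := r_sup_add_r_inf V W
  obtain ⟨N, a, b⟩ := quot A.cc_one (mor_id g) (inf_le_left (a := V) (b := W))
    (le_sup_right (a := V) (b := W)) (into_id.2 inf_le_right) (into_id.2 le_sup_left) e.symm
    (by omega) (by rw [comap_id])
  rw [deg_one] at a
  refine ⟨N, by linarith, b.trans (forall₃_congr fun i z hz => ?_)⟩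
  simp only [one_mulVec]
  exact ⟨fun c => le_antisymm (le_inf (inf_le_left (a := V) i z hz) (inf_le_right (a := V) i z hz))
    fun v d => c v d.1 d.2, fun c v d d' => c.ge ⟨d, d'⟩⟩

theorem deg_supermod (V W : Sb hg) : V.deg + W.deg ≤ (V ⊔ W).deg + (V ⊓ W).deg := by
  obtain ⟨N, a, -⟩ := deg_sup_inf V W
  rw [← a]
  exact le_add_of_nonneg_right N.cast_nonneg

/-- the kernel -/
abbrev ker (hg : A.Cc g) (hg' : A.Cc g') (hu : Mor g g' l u) : Sb hg := comap hg hu (⊥ : Sb hg')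

/-- the image -/
abbrev im (hg : A.Cc g) (hg' : A.Cc g') (hu : Mor g g' l u) : Sb hg' := map hg' hu (⊤ : Sb hg)

/-- the degree of an image -/
theorem deg_map (hl : A.Cc l) (hu : Mor g g' l u) (V : Sb hg) : ∃ N : ℕ,
    V.deg - (V ⊓ ker hg hg' hu).deg + N = (map hg' hu V).deg + (map hg' hu V).r * A.deg l ∧
    (N = 0 ↔ ∀ i, ∀ z ∈ ball (0 : ℂ) A.R, ∀ v ∈ V.S i z, u i z *ᵥ v = 0 →
      v ∈ (V ⊓ ker hg hg' hu).S i z) := by
  obtain ⟨N, a, b⟩ := quot hl hu (inf_le_left (a := V) (b := ker hg hg' hu)) bot_le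
    ((into_comap hu ⊥).mono inf_le_right le_rfl) (into_map hu V)
    ((add_comm _ _).trans (r_map_add hu V)) (zero_add _) le_rfl
  rw [deg_bot, sub_zero] at a
  refine ⟨N, a, b.trans (forall₃_congr fun i z hz => ?_)⟩
  simp only [bot_S hz, Submodule.mem_bot]

theorem r_im_add (hu : Mor g g' l u) : (im hg hg' hu).r + (ker hg hg' hu).r = n := by
  have := r_map_add (hg' := hg') hu (⊤ : Sb hg)
  rwa [top_inf_eq] at this

theorem deg_im (hl : A.Cc l) (hu : Mor g g' l u) : ∃ N : ℕ,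
    A.degM g - (ker hg hg' hu).deg + N = (im hg hg' hu).deg + (im hg hg' hu).r * A.deg l ∧
    (N = 0 ↔ ∀ i, ∀ z ∈ ball (0 : ℂ) A.R, ∀ v, u i z *ᵥ v = 0 → v ∈ (ker hg hg' hu).S i z) := by
  obtain ⟨N, a, b⟩ := deg_map (hg' := hg') hl hu (⊤ : Sb hg)
  rw [top_inf_eq] at a b
  rw [deg_top] at a
  refine ⟨N, a, b.trans (forall₃_congr fun i z hz => ?_)⟩
  simp only [top_S hz, Submodule.mem_top, true_imp_iff]

theorem ker_eq_top (hu : Mor g g' l u) :
    ker hg hg' hu = ⊤ ↔ ∀ i, ∀ z ∈ ball (0 : ℂ) A.R, u i z = 0 := by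
  rw [← top_le_iff, le_comap_iff]
  refine forall₃_congr fun i z hz => ?_
  simp only [top_S hz, bot_S hz, Submodule.mem_top, Submodule.mem_bot, true_imp_iff]
  exact ⟨fun h => toLin'.injective (LinearMap.ext fun v => by simp [h v]), fun h v => by
    rw [h, zero_mulVec]⟩

theorem im_eq_bot (hu : Mor g g' l u) :
    im hg hg' hu = ⊥ ↔ ∀ i, ∀ z ∈ ball (0 : ℂ) A.R, u i z = 0 := by
  rw [← ker_eq_top (hg := hg) (hg' := hg') hu, ← le_bot_iff, ← top_le_iff, map_le_iff, le_comap_iff]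

/-- subquotients have the same degree under a map which is injective on them everywhere -/
theorem deg_map_of_inj (hl : A.Cc l) (hu : Mor g g' l u) (V : Sb hg)
    (h : ∀ i, ∀ z ∈ ball (0 : ℂ) A.R, ∀ v ∈ V.S i z, u i z *ᵥ v = 0 → v = 0) :
    (map hg' hu V).r = V.r ∧ V.deg = (map hg' hu V).deg + V.r * A.deg l := by
  have e : V ⊓ ker hg hg' hu = ⊥ := le_bot_iff.1 fun i z hz v hv => by
    have := into_comap hu (⊥ : Sb hg') i z hz v (inf_le_right (a := V) i z hz hv)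
    rw [bot_S hz] at this ⊢
    exact h i z hz v (inf_le_left (a := V) i z hz hv) this
  have r := r_map_add (hg' := hg') hu V
  obtain ⟨N, a, b⟩ := deg_map (hg' := hg') hl hu V
  rw [e] at r a b
  rw [bot_r, add_zero] at r
  rw [b.2 fun i z hz v c d => h i z hz v c d ▸ zero_mem _, deg_bot, r] at a
  exact ⟨r, by simpa using a⟩

/-- a non-zero map from a stable bundle to a semistable bundle of at most the same slope is
injective on all fibres -/
theorem inj_of_stab (hu : Mor g g' (fun _ _ _ => 1) u)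
    (h1 : 0 < (ker hg hg' hu).r → (ker hg hg' hu).r < n →
      n * (ker hg hg' hu).deg < (ker hg hg' hu).r * A.degM g)
    (h2 : 0 < (im hg hg' hu).r → (im hg hg' hu).r < m →
      m * (im hg hg' hu).deg ≤ (im hg hg' hu).r * A.degM g')
    (h3 : n * A.degM g' ≤ m * A.degM g) (h0 : ¬ ∀ i, ∀ z ∈ ball (0 : ℂ) A.R, u i z = 0) :
    (∀ i, ∀ z ∈ ball (0 : ℂ) A.R, Function.Injective (u i z).mulVec) ∧ (im hg hg' hu).r = n ∧
      (im hg hg' hu).deg = A.degM g := by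
  obtain ⟨N, a, b⟩ := deg_im (hg := hg) (hg' := hg') A.cc_one hu
  have r := r_im_add (hg := hg) (hg' := hg') hu
  rw [deg_one, mul_zero, add_zero] at a
  have p : 0 < (im hg hg' hu).r := Nat.pos_of_ne_zero fun e => h0 ((im_eq_bot hu).1 (eq_bot e))
  have c : m * (im hg hg' hu).deg ≤ (im hg hg' hu).r * A.degM g' := by
    rcases (im hg hg' hu).r_le.eq_or_lt with e | e
    · rw [e, eq_top e, deg_top]
    · exact h2 p e
  have m0 : (0 : ℝ) < m := mod_cast p.trans_le (im hg hg' hu).r_le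
  have n0 : (0 : ℝ) < n := mod_cast (by omega : 0 < n)
  have p' : (0 : ℝ) < (im hg hg' hu).r := mod_cast p
  have r' : ((im hg hg' hu).r : ℝ) + (ker hg hg' hu).r = n := mod_cast r
  have N0 : (0 : ℝ) ≤ N := N.cast_nonneg
  have d : n * (im hg hg' hu).deg ≤ (im hg hg' hu).r * A.degM g :=
    le_of_mul_le_mul_left (by nlinarith) m0
  have k : (ker hg hg' hu).r = 0 := by
    by_contra k
    have := h1 (Nat.pos_of_ne_zero k) (by omega)
    rw [← a, ← r'] at d
    rw [← r'] at this n0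
    nlinarith
  rw [k, add_zero] at r
  rw [eq_bot k] at a b
  rw [deg_bot, sub_zero] at a
  rw [r, ← a] at d
  have N1 : N = 0 := by
    have : (N : ℝ) ≤ 0 := by nlinarith
    exact_mod_cast le_antisymm this N0
  refine ⟨fun i z hz x y e => sub_eq_zero.1 ?_, r, by simpa [N1] using a.symm⟩
  have := b.1 N1 i z hz (x - y) (by rw [mulVec_sub, e, sub_self])
  rwa [bot_S hz] at this

theorem det_ne_of_stab {g' : Cy A (Mn n)} {hg' : A.Cc g'} {u : Fm A (Mn n)}
    (hu : Mor g g' (fun _ _ _ => 1) u)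
    (h1 : 0 < (ker hg hg' hu).r → (ker hg hg' hu).r < n →
      n * (ker hg hg' hu).deg < (ker hg hg' hu).r * A.degM g)
    (h2 : 0 < (im hg hg' hu).r → (im hg hg' hu).r < n →
      n * (im hg hg' hu).deg ≤ (im hg hg' hu).r * A.degM g')
    (h3 : A.degM g' ≤ A.degM g) (h0 : ¬ ∀ i, ∀ z ∈ ball (0 : ℂ) A.R, u i z = 0) (i : Fin A.N)
    (hz : z ∈ ball (0 : ℂ) A.R) : (u i z).det ≠ 0 :=
  ((isUnit_iff_isUnit_det _).1 (mulVec_injective_iff_isUnit.1 ((inj_of_stab hu h1 h2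
    (mul_le_mul_of_nonneg_left h3 n.cast_nonneg) h0).1 i z hz))).ne_zero

end Sb

end Vale.Agent.P275KR
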