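import Vale.Agent.P275KR.Ker
import Vale.Agent.P275KR.Lim
import Vale.Agent.P275NA.Defs

/-!
# The blocks `KER` and `MON`
-/

open scoped Matrix.Norms.Operator Topology
open Filter Set Matrix Metric

noncomputable section

namespace Vale.Agent.P275KR

open Vale.Agent.P281Z.Hm Vale.Agent.P275NA

theorem an_cols {c : ℂ} {n r s : ℕ} {T : ℂ → Matrix (Fin n) (Fin r) ℂ}
    {S : ℂ → Matrix (Fin n) (Fin s) ℂ} (hT : AnalyticAt ℂ T c) (hS : AnalyticAt ℂ S c) :
    AnalyticAt ℂ (fun z => (fromCols (T z) (S z)).submatrix id finSumFinEquiv.symm) c :=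
  an_of fun i j => by
    simp only [submatrix_apply, id]
    rcases finSumFinEquiv.symm j with a | a
    · exact an_ent hT i a
    · exact an_ent hS i a

theorem det_cols {r s : ℕ} {T : Matrix (Fin (r + s)) (Fin r) ℂ} {S : Matrix (Fin (r + s)) (Fin s) ℂ}
    {T' : Matrix (Fin r) (Fin (r + s)) ℂ} {S' : Matrix (Fin s) (Fin (r + s)) ℂ}
    (h : Blk T S T' S') : ((fromCols T S).submatrix id finSumFinEquiv.symm).det ≠ 0 := by
  have a : (fromCols T S).submatrix id finSumFinEquiv.symm *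
      (fromRows T' S').submatrix finSumFinEquiv.symm id = 1 := by
    rw [submatrix_mul_equiv, h.cols_rows, submatrix_id_id]
  exact (isUnit_det_of_right_inverse a).ne_zero

theorem ker : KER := by
  intro m n g c hg
  obtain ⟨r, s, t, ⟨F⟩⟩ := exists_smith hg
  obtain rfl : m = r + s := by have := F.card_src; rw [Fintype.card_fin] at this; omega
  obtain rfl : n = r + t := by have := F.card_tgt; rw [Fintype.card_fin] at this; omega
  refine ⟨r, Fin.addCases F.k fun _ => 0, _, _, Nat.le_add_right _ _, Nat.le_add_right _ _,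
    an_cols F.aT F.aS, an_cols F.aA F.aC, det_cols F.src.self_of_nhds.symm,
    det_cols F.tgt.self_of_nhds, ?_⟩
  filter_upwards [F.mul_S, F.mul_T] with z a b
  have d : (Matrix.of fun (i : Fin (r + t)) (j : Fin (r + s)) => if (i : ℕ) = j ∧ (j : ℕ) < r then
      (z - c) ^ (Fin.addCases F.k (fun _ => 0) j : ℕ) else 0) =
      (fromBlocks (dg c F.k z) 0 0 0).submatrix finSumFinEquiv.symm finSumFinEquiv.symm := by
    ext i j
    induction i using Fin.addCases with
    | left i =>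
      induction j using Fin.addCases with
      | left j =>
        by_cases e : i = j
        · subst e; simp [dg]
        · simp [dg, e, Fin.val_inj]
      | right j => simp
    | right i =>
      induction j using Fin.addCases with
      | left j =>
        have : ¬ r + (i : ℕ) = j := by have := j.2; omega
        simp [this]
      | right j => simp
  have e : g z * (fromCols (F.T z) (F.S z)).submatrix id finSumFinEquiv.symm =
      (g z * fromCols (F.T z) (F.S z)).submatrix id finSumFinEquiv.symm := rfl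
  rw [d, submatrix_mul_equiv, fromCols_mul_fromBlocks, ← b, e, mul_fromCols, a]
  simp

theorem extract {ι : Type*} [Countable ι] {l : Filter ℕ} [l.NeBot] (hl : l ≤ atTop)
    {P : ι → ℕ → Prop} (h : ∀ i, ∀ᶠ j in l, P i j) :
    ∃ σ : ℕ → ℕ, StrictMono σ ∧ ∀ i, ∀ᶠ N in atTop, P i (σ N) := by
  obtain ⟨e, he⟩ := exists_injective_nat ι
  obtain ⟨σ, h1, h2⟩ := extraction_forall_of_frequently (P := fun N j => ∀ i ∈ e ⁻¹' Iic N, P i j)
    fun N => (((eventually_all_finite ((finite_Iic N).preimage he.injOn)).2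
      fun i _ => h i).frequently).filter_mono hl
  exact ⟨σ, h1, fun i => (eventually_ge_atTop (e i)).mono fun N hN => h2 N i hN⟩

theorem extract_loc {X F : Type*} [TopologicalSpace X] [SecondCountableTopology X]
    [PseudoMetricSpace F] {l : Filter ℕ} [l.NeBot] (hl : l ≤ atTop) {f : ℕ → X → F} {g : X → F}
    {U : Set X} (h : TendstoLocallyUniformlyOn f g l U) :
    ∃ σ : ℕ → ℕ, StrictMono σ ∧ TendstoLocallyUniformlyOn (fun j => f (σ j)) g atTop U := by
  rw [Metric.tendstoLocallyUniformlyOn_iff] at h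
  have a : ∀ (k : ℕ) (x : X), ∃ O, IsOpen O ∧ (x ∈ U → x ∈ O ∧ ∀ᶠ j in l, ∀ y ∈ O ∩ U,
      dist (g y) (f j y) < 1 / ((k : ℝ) + 1)) := fun k x => by
    by_cases hx : x ∈ U
    · obtain ⟨t, ht, e⟩ := h _ (Nat.one_div_pos_of_nat (n := k)) x hx
      obtain ⟨O, h1, h2, h3⟩ := mem_nhdsWithin.1 ht
      exact ⟨O, h1, fun _ => ⟨h2, e.mono fun j hj y hy => hj y (h3 hy)⟩⟩
    · exact ⟨univ, isOpen_univ, fun h => absurd h hx⟩
  choose O o1 o2 using a
  choose T t1 t2 t3 using fun k => TopologicalSpace.countable_cover_nhdsWithin (f := O k) (s := U)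
    fun x hx => mem_nhdsWithin_of_mem_nhds ((o1 k x).mem_nhds (o2 k x hx).1)
  have := fun k => (t2 k).to_subtype
  obtain ⟨σ, h1, h2⟩ := extract hl (ι := Σ k, T k) (P := fun i j => ∀ y ∈ O i.1 i.2 ∩ U,
    dist (g y) (f j y) < 1 / ((i.1 : ℝ) + 1)) fun i => (o2 _ _ (t1 _ i.2.2)).2
  refine ⟨σ, h1, Metric.tendstoLocallyUniformlyOn_iff.2 fun ε hε x hx => ?_⟩
  obtain ⟨k, hk⟩ := exists_nat_one_div_lt hε
  obtain ⟨y, hy, hxy⟩ := mem_iUnion₂.1 (t3 k hx)
  exact ⟨O k y ∩ U, inter_mem (mem_nhdsWithin_of_mem_nhds ((o1 k y).mem_nhds hxy))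
    self_mem_nhdsWithin, (h2 ⟨k, y, hy⟩).mono fun N hN z hz => (hN z hz).trans hk⟩

theorem extract_unif {X F : Type*} [PseudoMetricSpace F] {l : Filter ℕ} [l.NeBot] (hl : l ≤ atTop)
    {f : ℕ → X → F} {g : X → F} {U : Set X} (h : TendstoUniformlyOn f g l U) :
    ∃ σ : ℕ → ℕ, StrictMono σ ∧ TendstoUniformlyOn (fun j => f (σ j)) g atTop U := by
  rw [Metric.tendstoUniformlyOn_iff] at h
  obtain ⟨σ, h1, h2⟩ := extract hl fun k : ℕ => h _ (Nat.one_div_pos_of_nat (n := k))
  refine ⟨σ, h1, Metric.tendstoUniformlyOn_iff.2 fun ε hε => ?_⟩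
  obtain ⟨k, hk⟩ := exists_nat_one_div_lt hε
  exact (h2 k).mono fun N hN z hz => (hN z hz).trans hk

/-- uniform convergence along an ultrafilter on a totally bounded set -/
theorem ascoli_unif {ι X F : Type*} [PseudoMetricSpace X] [NormedAddCommGroup F] [ProperSpace F]
    (𝒰 : Ultrafilter ι) {f : ι → X → F} {U : Set X} (hU : TotallyBounded U) {C : ℝ} {w : ℝ → ℝ}
    (hw : Tendsto w (𝓝[≥] 0) (𝓝 0))
    (hb : ∀ᶠ j in (𝒰 : Filter ι), ∀ x ∈ U, ‖f j x‖ ≤ C ∧
      ∀ y ∈ U, dist (f j y) (f j x) ≤ w (dist y x)) :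
    ∃ g : X → F, TendstoUniformlyOn f g 𝒰 U ∧ ContinuousOn g U := by
  obtain ⟨g, hg, gc⟩ := ascoli_mod 𝒰 hw hb
  refine ⟨g, Metric.tendstoUniformlyOn_iff.2 fun ε hε => ?_, gc⟩
  obtain ⟨δ, hδ, d⟩ := Metric.tendsto_nhdsWithin_nhds.1 hw (ε / 3) (by positivity)
  have d' : ∀ x y : X, dist x y < δ → w (dist x y) < ε / 3 := fun x y h =>
    (le_abs_self _).trans_lt (by
      simpa [Real.dist_eq] using d (x := dist x y) dist_nonneg (by simpa [Real.dist_eq] using h))
  obtain ⟨t, t1, t2, t3⟩ := Metric.finite_approx_of_totallyBounded hU δ hδ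
  have p : ∀ᶠ j in (𝒰 : Filter ι), ∀ y ∈ t, dist (f j y) (g y) < ε / 3 :=
    (eventually_all_finite t2).2 fun y hy =>
      Metric.tendsto_nhds.1 (hg.tendsto_at (t1 hy)) _ (by positivity)
  filter_upwards [p, hb] with j a b x hx
  obtain ⟨y, hy, hxy⟩ := mem_iUnion₂.1 (t3 hx)
  have e1 : dist (g x) (g y) ≤ w (dist x y) :=
    le_of_tendsto ((hg.tendsto_at hx).dist (hg.tendsto_at (t1 hy)))
      (hb.mono fun i hi => (hi y (t1 hy)).2 x hx)
  have e2 := (b y (t1 hy)).2 x hx
  have e3 := d' x y hxy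
  have e4 := a y hy
  have e5 := dist_triangle4 (g x) (g y) (f j y) (f j x)
  rw [dist_comm (g y), dist_comm (f j y) (f j x)] at e5
  linarith

theorem mon : MON := by
  refine ⟨fun F _ _ _ U f M hU ha hb => ?_, fun F _ _ _ U f M hb hU => ?_,
    fun U f g z hU hz h hg e => hurwitz hU hg (Eventually.of_forall fun j =>
      ⟨(h j).1.differentiableOn, (h j).2⟩) hz e⟩
  · have := FiniteDimensional.proper ℂ F
    obtain ⟨g, h1, h2⟩ := montel' (hyperfilter ℕ) (f := f) hU (Eventually.of_forall fun j =>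
      ⟨(ha j).differentiableOn, hb j⟩)
    obtain ⟨σ, s1, s2⟩ := extract_loc (hyperfilter_le_cofinite.trans_eq Nat.cofinite_eq_atTop) h1
    exact ⟨σ, g, s1, h2.analyticOnNhd hU, s2⟩
  · have := FiniteDimensional.proper ℝ F
    obtain ⟨g, h1, -⟩ := ascoli_unif (hyperfilter ℕ) (f := f)
      (hU.isCompact_closure.totallyBounded.subset subset_closure) (C := M) (w := fun t => M * √t)
      (((continuous_const.mul Real.continuous_sqrt).tendsto' 0 0 (by simp)).mono_left
        nhdsWithin_le_nhds) (Eventually.of_forall fun j x hx => ⟨(hb j x hx x hx).1, fun y hy => by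
          simpa only [dist_eq_norm] using (hb j y hy x hx).2⟩)
    obtain ⟨σ, s1, s2⟩ := extract_unif (hyperfilter_le_cofinite.trans_eq Nat.cofinite_eq_atTop) h1
    exact ⟨σ, g, s1, s2⟩

end Vale.Agent.P275KR
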