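import Vale.Agent.P275GC.Ox

/-!
# The residue theorem
-/

set_option linter.unusedSectionVars false

open scoped Topology ContDiff
open Filter Set Metric Complex

noncomputable section

namespace Vale.Agent.P275KR

open Vale.Agent.P281Z.Hm Vale.Agent.P275GC Vale.Agent.P275GC.At
open Vale.Agent.P275NA (dz db lp)

variable {C : Type} [TopologicalSpace C] [T2Space C] {A : At C} {i j : Fin A.N} {z : ℂ} {x : C}

theorem lim_ev {f V : ℂ → ℂ} (h1 : ∀ᶠ w in 𝓝 z, ContinuousAt V w) (h2 : ∀ᶠ w in 𝓝[≠] z, f w = V w) :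
    (fun y => limUnder (𝓝[≠] y) f) =ᶠ[𝓝 z] V := by
  have a : ∀ z, ContinuousAt V z → (∀ᶠ w in 𝓝[≠] z, f w = V w) → limUnder (𝓝[≠] z) f = V z :=
    fun z h1 h2 =>
      ((h1.tendsto.mono_left nhdsWithin_le_nhds).congr' (EventuallyEq.symm h2)).limUnder_eq
  filter_upwards [h1, (eventually_nhdsWithin_iff.1 h2).eventually_nhds] with w b c
  by_cases e : w = z
  · rw [e]; exact a z h1.self_of_nhds h2
  · refine a w b (nhdsWithin_le_nhds ?_)
    filter_upwards [c, isOpen_ne.mem_nhds e] with t d d' using d d'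

theorem eq_of_pn {f g : ℂ → ℂ} (hf : ContinuousAt f z) (hg : ContinuousAt g z)
    (h : ∀ᶠ w in 𝓝[≠] z, f w = g w) : f z = g z :=
  tendsto_nhds_unique_of_eventuallyEq (l := 𝓝[≠] z) (hf.tendsto.mono_left nhdsWithin_le_nhds)
    (hg.tendsto.mono_left nhdsWithin_le_nhds) h

/-- Stokes for forms with removable singularities -/
theorem reg10 {f γ : Fin A.N → ℂ → ℂ}
    (h1 : ∀ i j, ∀ z ∈ A.O i j, ∀ᶠ w in 𝓝[≠] z, f i w = A.d i j w * f j (A.tr i j w))
    (h2 : ∀ i, ∀ z ∈ ball (0 : ℂ) A.R, ∃ V : ℂ → ℂ, ContDiffAt ℝ 1 V z ∧ db V z = γ i z ∧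
      ∀ᶠ w in 𝓝[≠] z, f i w = V w) : A.Ct γ ∧ A.int γ = 0 := by
  choose! V a b c using h2
  have e := fun i z h => lim_ev (((a i z h).eventually (by simp)).mono fun _ b => b.continuousAt)
    (c i z h)
  have s : A.Sm 1 fun i y => limUnder (𝓝[≠] y) (f i) := fun i z h =>
    ((a i z h).congr_of_eventuallyEq (e i z h)).contDiffWithinAt
  have e' : ∀ i, ∀ z ∈ ball (0 : ℂ) A.R, db (fun y => limUnder (𝓝[≠] y) (f i)) z = γ i z :=
    fun i z h => (wb_congr (e i z h) 1).trans (b i z h)
  refine ⟨fun i => ((s.db (m := 0) (by norm_num)).ct i).congr fun z h => (e' i z h).symm, ?_⟩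
  rw [← int_congr' e']
  refine F10.int_db (fun i j z h => ?_) s
  refine (e i z h.1).self_of_nhds.trans (Eq.trans ?_
    (congrArg (A.d i j z * ·) (e j _ (tr_ball h)).self_of_nhds.symm))
  refine eq_of_pn (g := fun w => A.d i j w * V j (A.tr i j z) (A.tr i j w))
    (a i z h.1).continuousAt ((an_d h).continuousAt.mul ((a j _ (tr_ball h)).continuousAt.comp
      (an_tr h).continuousAt)) ?_
  filter_upwards [c i z h.1, h1 i j z h, (tends_tr h).eventually (c j _ (tr_ball h))] with w p q r
  rw [← p, q, r]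

theorem ne_ev (x : C) (h : z ∈ ball (0 : ℂ) A.R) : ∀ᶠ w in 𝓝[≠] z, (A.e i).symm w ≠ x := by
  by_cases e : (A.e i).symm z = x
  · filter_upwards [self_mem_nhdsWithin, nhdsWithin_le_nhds (isOpen_ball.mem_nhds h)] with w a b c
    exact a (by rw [← rinv (i := i) b, c, ← e, rinv h]; rfl)
  · exact nhdsWithin_le_nhds ((contAt_symm h).eventually_ne e)

/-- residues do not depend on the chart -/
theorem res_tr (h : z ∈ A.O i j) {V V' : ℂ → ℂ} {ρ ρ' : ℂ} (hV : ContinuousAt V z)
    (hV' : ContinuousAt V' (A.tr i j z)) (e : ∀ᶠ w in 𝓝[≠] z, V w + ρ / (w - z) =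
      A.d i j w * (V' (A.tr i j w) + ρ' / (A.tr i j w - A.tr i j z))) : ρ = ρ' := by
  have c : ContinuousAt (fun w => w - z) z := continuousAt_id.sub continuousAt_const
  have := eq_of_pn (f := fun w => (w - z) * V w + ρ) (g := fun w => A.d i j w *
      ((w - z) * V' (A.tr i j w) + ρ' / dslope (A.tr i j) z w)) ((c.mul hV).add continuousAt_const)
    ((an_d h).continuousAt.mul ((c.mul (hV'.comp (an_tr h).continuousAt)).add
      (continuousAt_const.div (an_dslope h h).continuousAt (dslope_ne h h)))) (by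
    filter_upwards [e, self_mem_nhdsWithin, nhdsWithin_le_nhds (O_nhds h)] with w p q r
    have q' : w - z ≠ 0 := sub_ne_zero.2 q
    have r' := dslope_ne h r
    rw [← sub_smul_dslope (A.tr i j), smul_eq_mul] at p
    field_simp at p ⊢
    linear_combination p)
  simp only [sub_self, zero_mul, zero_add, dslope_same] at this
  exact this.trans (mul_div_cancel₀ _ (d_ne h))

/-- **the residue theorem**, for a form with a simple pole at `x` -/
theorem res_thm {om γ ρ : Fin A.N → ℂ → ℂ}
    (h1 : ∀ i j, ∀ w ∈ A.O i j, (A.e i).symm w ≠ x → om i w = A.d i j w * om j (A.tr i j w))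
    (h2 : ∀ i, ∀ z ∈ ball (0 : ℂ) A.R, ∃ V : ℂ → ℂ, ContDiffAt ℝ 1 V z ∧ db V z = γ i z ∧
      ∀ᶠ w in 𝓝[≠] z, om i w = V w + ρ i z / (w - z))
    (h3 : ∀ i, ∀ z ∈ ball (0 : ℂ) A.R, (A.e i).symm z ≠ x → ρ i z = 0)
    (hx : x ∈ (A.e j).source) : A.int γ = -Real.pi * ρ j (A.e j x) := by
  classical
  choose! V a b c using h2
  have h4 : ∀ i, ∀ z ∈ ball (0 : ℂ) A.R, (A.e i).symm z = x → ρ i z = ρ j (A.e j x) :=
    fun i z h e => by
    have o : z ∈ A.O i j := ⟨h, by rw [mem_preimage, e]; exact hx⟩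
    rw [← e]
    refine res_tr o (a i z h).continuousAt (a j _ (tr_ball o)).continuousAt ?_
    filter_upwards [c i z h, (tends_tr o).eventually (c j _ (tr_ball o)), ne_ev (i := i) x h,
      nhdsWithin_le_nhds (O_nhds o)] with w p q r s
    rw [← p, h1 i j w s r, q]
    rfl
  obtain ⟨G, Λ, g1, -, g3, g4⟩ := A.exists_green x
  choose! U u1 u2 u3 using g4
  have k : ∀ i, ∀ z ∈ ball (0 : ℂ) A.R, ∀ᶠ w in 𝓝[≠] z,
      DifferentiableAt ℝ (fun y => (G ((A.e i).symm y) : ℂ)) w ∧
      dz (fun y => (G ((A.e i).symm y) : ℂ)) w = dz (fun y => (U i z y : ℂ)) w +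
        if (A.e i).symm z = x then (w - z)⁻¹ else 0 := fun i z h => by
    filter_upwards [nhdsWithin_le_nhds ((eventually_nhdsWithin_iff.1 (u3 i z h)).eventually_nhds.and
      (((u1 i z h).of_le (m := 1) (by simp)).eventually (by simp))), self_mem_nhdsWithin]
      with w p q
    have an : AnalyticAt ℂ (fun y => y - z) w := analyticAt_id.sub analyticAt_const
    have f1 := (cd_ofReal p.2).differentiableAt one_ne_zero
    have f2 := (cd_ofReal (cd_log_nsq (k := 1) an (sub_ne_zero.2 q))).differentiableAt one_ne_zero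
    have e := p.1.and (isOpen_ne.mem_nhds q)
    split_ifs at e ⊢
    · have e' : (fun y => (G ((A.e i).symm y) : ℂ)) =ᶠ[𝓝 w] fun y => (U i z y : ℂ) +
        (Real.log (normSq (y - z)) : ℂ) := e.mono fun y r => by
          beta_reduce; rw [r.1 r.2, ofReal_add]
      refine ⟨(f1.add f2).congr_of_eventuallyEq e', (wd_congr e' 1).trans ((wd_add f1 f2 1).trans
        (congrArg _ ((dz_log_nsq an (sub_ne_zero.2 q)).trans (by simp))))⟩
    · have e' : (fun y => (G ((A.e i).symm y) : ℂ)) =ᶠ[𝓝 w] fun y => (U i z y : ℂ) :=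
        e.mono fun y r => by beta_reduce; rw [r.1 r.2, add_zero]
      exact ⟨f1.congr_of_eventuallyEq e', (wd_congr e' 1).trans (add_zero _).symm⟩
  obtain ⟨p, q⟩ := reg10 (A := A) (f := fun i w => om i w - ρ j (A.e j x) *
      dz (fun y => (G ((A.e i).symm y) : ℂ)) w) (γ := fun i w => γ i w - ρ j (A.e j x) * Λ i w)
    (fun i m z h => by
      filter_upwards [ne_ev (i := i) x h.1, nhdsWithin_le_nhds (O_nhds h),
        (tends_tr h).eventually (k m _ (tr_ball h))] with w p q r
      rw [h1 i m w q p, dz, wd_congr (g := fun y => (G ((A.e m).symm (A.tr i m y)) : ℂ))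
        (eventually_of_mem (O_nhds q) fun y s => by beta_reduce; rw [symm_tr s])]
      have := dz_comp r.1 (df_tr q)
      rw [dz] at this
      rw [this, smul_eq_mul, At.d]
      ring)
    fun i z h => by
      have f := cd_dz (m := 1) (cd_ofReal ((u1 i z h).of_le two_le)) (by norm_num)
      refine ⟨fun w => V i z w - ρ j (A.e j x) * dz (fun y => (U i z y : ℂ)) w,
        (a i z h).sub (contDiffAt_const.mul f), ?_, ?_⟩
      · refine (wb_sub ((a i z h).differentiableAt one_ne_zero)
          ((f.differentiableAt one_ne_zero).const_mul _) 1).trans (congrArg₂ _ (b i z h) ?_)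
        exact (wb_const_smul _ (f.differentiableAt one_ne_zero) 1).trans
          (congrArg _ ((lp_eq ((u1 i z h).of_le two_le)).trans (congrArg _ (u2 i z h))))
      · filter_upwards [c i z h, k i z h] with w p q
        rw [p, q.2]
        split_ifs with e
        · rw [h4 i z h e]; ring
        · rw [h3 i z h e]; ring
  have r : A.Ct fun i w => ρ j (A.e j x) * Λ i w := fun i =>
    continuousOn_const.mul (g1.ofReal.ct i)
  have := int_add p.in r.in
  simp only [sub_add_cancel] at this
  rw [this, q, zero_add, int_cmul, int_ofReal, g3, mul_comm]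
  push_cast
  rfl

/-- holomorphic sections of `K(x)` vanish at `x` -/
theorem res0 {s : Fin A.N → ℂ → ℂ} (h : A.Sec (fun i j z => A.d i j z * A.ox x x i j z) s)
    (hs : A.Hl s) (hx : x ∈ (A.e j).source) : s j (A.e j x) = 0 := by
  classical
  have := res_thm (A := A) (x := x) (om := fun i w => s i w / A.sg x x i w) (γ := fun _ _ => 0)
    (ρ := fun i z => if (A.e i).symm z = x then s i z else 0) (fun i m w a _ => by
      rw [h i m w a, A.sec_sg x i m w a, smul_eq_mul, smul_eq_mul, mul_right_comm,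
        mul_comm (A.ox x x i m w), mul_div_mul_right _ _ ((A.cc_ox x).ne a), mul_div_assoc])
    (fun i z a => by
      split_ifs with e
      · obtain ⟨q, hq⟩ := hs.an a i
        have b := hq.has_fpower_series_dslope_fslope.analyticAt
        refine ⟨_, cd_an b, wb_hol b.differentiableAt 1, eventually_of_mem self_mem_nhdsWithin
          fun w c => ?_⟩
        rw [sg_mem (e ▸ map_tgt a), ← e, rinv a, dslope_of_ne _ c, slope_def_field]
        ring
      · have b := (hs.an a i).div (an_sg x x i z) fun c => e ((sg_eq_zero a).1 c)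
        exact ⟨_, cd_an b, wb_hol b.differentiableAt 1, Eventually.of_forall fun w => by simp⟩)
    (fun _ _ _ e => if_neg e) hx
  rw [int_zero, if_pos ((A.e j).left_inv hx), eq_comm, mul_eq_zero] at this
  exact this.resolve_left (by simp)

end Vale.Agent.P275KR
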