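import Vale.Agent.P275KR.Noi
import Vale.Agent.P275KR.Res
import Vale.Agent.P275HE.Defs
import Vale.Agent.P275HE.Alg

/-!
# The degree of an invariant subbundle and the residue
-/

set_option linter.unusedSectionVars false

open scoped Matrix.Norms.Operator Topology ContDiff
open Filter Set Matrix Metric Complex

noncomputable section

namespace Vale.Agent.P275KR

open Vale.Agent.P281Z.Hm Vale.Agent.P275GC Vale.Agent.P275GC.At Vale.Agent.P275MO
open Vale.Agent.P275NA (Fm Cy Mn Mr FrAt degS cvS dz db lp Sub)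

variable {C : Type} [TopologicalSpace C] [T2Space C] {A : At C} {n k : ℕ} {l : Cy A ℂ}
  {z : Dat C A.N n} {S : Fm A (Sp n)} {i j : Fin A.N} {w : ℂ}

theorem ex_pole (g : Good A l z) (hS : Sub A z.g k S) (hI : InvC A z S)
    (h : w ∈ ball (0 : ℂ) A.R) (e : (A.e i).symm w = z.x) :
    ∃ (t : ℂ → Mr n k) (c : ℂ → Mn k) (c0 : Mn k), FrAt (S i) t w ∧ AnalyticAt ℂ c w ∧
      t w * c0 = z.σ i * z.R * (z.σ i)⁻¹ * t w ∧
      ∀ᶠ y in 𝓝[≠] w, Rl z S i t (fun y => c y + (y - w)⁻¹ • c0) y := by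
  obtain ⟨t, ht⟩ := hS.fr i w h
  obtain ⟨L, a, b⟩ := an_linv ht.an ht.inj
  have f := an_fill g h e
  set F := Function.update (fun y => (y - w) • z.a i y) w (z.σ i * z.R * (z.σ i)⁻¹) with hF
  have s : AnalyticAt ℂ (fun y => y - w) w := analyticAt_id.sub analyticAt_const
  have m : AnalyticAt ℂ (fun y => (y - w) • z.lam • dz t y + F y * t y) w :=
    (s.smul ((P275HK.hol_dz ht.an).const_smul (c := z.lam))).add (an_mul f ht.an)
  have c := an_mul a m
  set c1 := fun y => L y * ((y - w) • z.lam • dz t y + F y * t y)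
  have k1 : ∀ᶠ y in 𝓝[≠] w, t y * c1 y = (y - w) • (z.lam • dz t y + z.a i y * t y) ∧
      t y * c1 y = (y - w) • z.lam • dz t y + F y * t y := by
    filter_upwards [off_ev' (i := i) z.x h, self_mem_nhdsWithin,
      nhdsWithin_le_nhds (b.and (fr_ev ht))] with y o q r
    have : (y - w) • z.lam • dz t y + F y * t y = (y - w) • (z.lam • dz t y + z.a i y * t y) := by
      rw [hF, Function.update_of_ne q, Matrix.smul_mul, smul_add]
    simp only [c1, this, Matrix.mul_smul, eq_mul_of_le r.1 (inv_rg hI o r.2), and_self]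
  obtain ⟨q, hq⟩ := c
  have d := hq.has_fpower_series_dslope_fslope.analyticAt
  refine ⟨t, _, c1 w, ht, d, ?_, ?_⟩
  · have := tendsto_nhds_unique_of_eventuallyEq (l := 𝓝[≠] w)
      ((an_mul ht.an hq.analyticAt).continuousAt.tendsto.mono_left nhdsWithin_le_nhds)
      (m.continuousAt.tendsto.mono_left nhdsWithin_le_nhds) (k1.mono fun _ x => x.2)
    rwa [sub_self, zero_smul, zero_add, hF, Function.update_self] at this
  · filter_upwards [nhdsWithin_le_nhds ((fr_ev ht).and (d.eventually_analyticAt.and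
      (eventually_nhdsWithin_iff.1 k1).eventually_nhds)), self_mem_nhdsWithin] with y r u
    refine ⟨r.1, r.2.1.add (((analyticAt_id.sub analyticAt_const).inv
      (sub_ne_zero.2 u)).smul analyticAt_const), ?_⟩
    filter_upwards [r.2.2, isOpen_ne.mem_nhds u] with v p x _
    rw [dslope_of_ne _ x, slope_def_module, ← smul_add, sub_add_cancel, Matrix.mul_smul, (p x).1,
      inv_smul_smul₀ (sub_ne_zero.2 x)]

/-- **the residue formula**: `c` is the residue on the fibre of an invariant subbundle -/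
theorem inv_deg (g : Good A l z) (hn : 0 < n) (hS : Sub A z.g k S) (hI : InvC A z S) :
    ∃ (T : Mr n k) (c : Mn k), Function.Injective T.mulVec ∧ T * c = z.R * T ∧
      z.lam * ((n * degS A z.g k S - k * A.deg l : ℝ) : ℂ) = -(n * c.trace) := by
  classical
  have hl := cc_l g
  choose! t c r using fun i w (h : w ∈ off A z.x i) =>
    ex_Rl hS hI h.1 (an_off g h) (Eventually.of_forall fun _ _ => rfl)
  choose! t0 c1 c0 p1 p2 p3 p4 using fun i w h => ex_pole (i := i) (w := w) g hS hI h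
  have e : ∀ i (T : ℂ → Mr n k) (D : ℂ → Mn k), ∀ y ∈ off A z.x i, Rl z S i T D y →
      om z l i (t i y) (c i y) y = om z l i T D y := fun i T D y b a => by
    rw [om_tr0 g hn hS (O_self b.1) b.2 (r i y b) ((tr_self b.1).symm ▸ a), A.cc_d.one i y b.1,
      tr_self b.1, one_mul]
  obtain ⟨j, hj, -⟩ := A.cov z.x
  have s := res_thm (A := A) (x := z.x) (om := fun i y => om z l i (t i y) (c i y) y)
    (γ := fun i w => z.lam * ((n * cvS A k (A.mtM z.g) S i w - k * A.cv (A.mt l) i w : ℝ) : ℂ))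
    (ρ := fun i w => if (A.e i).symm w = z.x then n * (c0 i w).trace else 0)
    (fun i j w h x => om_tr0 g hn hS h x (r i w ⟨h.1, x⟩) (r j _ (P275MB.off_tr h x)))
    (fun i w h => by
      split_ifs with x
      · refine ⟨_, cd_om g h (p1 i w h x) (p2 i w h x), db_om g h (p1 i w h x) (p2 i w h x), ?_⟩
        filter_upwards [off_ev' (i := i) z.x h, p4 i w h x] with y a b
        rw [e i _ _ y a b, om, om, trace_add, trace_smul, smul_eq_mul]
        ring
      · have q := r i w ⟨h, x⟩
        refine ⟨_, cd_om g h q.fr q.an, db_om g h q.fr q.an, ?_⟩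
        filter_upwards [off_ev' (i := i) z.x h, nhdsWithin_le_nhds q.ev] with y a b
        rw [e i _ _ y a b, zero_div, add_zero])
    (fun _ _ _ x => if_neg x) hj
  have c1 : A.Ct fun i w => n * cvS A k (A.mtM z.g) S i w := fun i =>
    continuousOn_const.mul ((P275DG.sm_cvS g.cc.mtM hS).ct i)
  have c2 : A.Ct fun i w => k * A.cv (A.mt l) i w := fun i =>
    continuousOn_const.mul ((hl.mt.of_le two_le).ct_cv i)
  have x := (A.e j).left_inv hj
  have u := (g.fr j hj).isUnit
  rw [int_cmul, int_ofReal, int_sub c1.in c2.in, int_mul, int_mul, if_pos x] at s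
  refine ⟨(z.σ j)⁻¹ * t0 j (A.e j z.x) (A.e j z.x), c0 j (A.e j z.x), fun a b d =>
    (p1 j _ (map_src hj) x).inj ?_, ?_, ?_⟩
  · simpa only [mulVec_mulVec, mul_nonsing_inv_cancel_left _ _ u] using congrArg (z.σ j *ᵥ ·) d
  · rw [Matrix.mul_assoc, p3 j _ (map_src hj) x, Matrix.mul_assoc, Matrix.mul_assoc,
      nonsing_inv_mul_cancel_left _ _ u]
  · rw [degS, deg, mul_left_comm, mul_left_comm (k : ℝ), ← mul_sub, ofReal_mul, mul_left_comm, s]
    have := ofReal_ne_zero.2 Real.pi_ne_zero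
    push_cast
    field_simp

theorem sum_two {β : ℂ} (s : Multiset ℂ) (h : ∀ μ ∈ s, μ = (1 - n) * β ∨ μ = β) :
    ∃ a : ℕ, s.sum = (s.card - a * n) * β := by
  induction s using Multiset.induction_on with
  | empty => exact ⟨0, by simp⟩
  | cons μ s ih =>
    obtain ⟨a, e⟩ := ih fun ν b => h ν (Multiset.mem_cons_of_mem b)
    rcases h μ (Multiset.mem_cons_self _ _) with b | b
    · exact ⟨a + 1, by rw [Multiset.sum_cons, e, b, Multiset.card_cons]; push_cast; ring⟩
    · exact ⟨a, by rw [Multiset.sum_cons, e, b, Multiset.card_cons]; push_cast; ring⟩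

theorem root_of {T : Mr n k} {c : Mn k} {R : Mn n} (hT : Function.Injective T.mulVec)
    (e : T * c = R * T) {μ : ℂ} (h : μ ∈ c.charpoly.roots) : R.charpoly.eval μ = 0 := by
  obtain ⟨v, a, b⟩ := exists_mulVec_eq_zero_iff.2
    ((P275HE.ev_char c μ).symm.trans (Polynomial.isRoot_of_mem_roots h))
  rw [P275HE.ev_char]
  refine exists_mulVec_eq_zero_iff.1 ⟨T *ᵥ v, fun d => a (hT (d.trans (mulVec_zero _).symm)), ?_⟩
  have := congrArg (T *ᵥ ·) b
  simp only [mulVec_mulVec, mulVec_zero, Matrix.mul_sub, Matrix.mul_smul, Matrix.mul_one, e] at this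
  rwa [mulVec_mulVec, Matrix.sub_mul, Matrix.smul_mul, Matrix.one_mul]

theorem dvd_of {T : Mr n k} {c : Mn k} {R : Mn n} (hT : Function.Injective T.mulVec)
    (e : T * c = R * T) : c.charpoly ∣ R.charpoly := by
  obtain ⟨L, hL⟩ := exists_linv hT
  obtain ⟨s, U, U', -, -, b⟩ := exists_blk (c := 0) (T := fun _ => T) (T' := fun _ => L)
    analyticAt_const analyticAt_const (Eventually.of_forall fun _ => hL)
  have b := b.self_of_nhds.symm
  have d := charpoly_mul_comm' (fromRows L (U' 0)) (R * fromCols T (U 0))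
  rw [Matrix.mul_assoc, b.cols_rows, Matrix.mul_one, Fintype.card_sum, b.card,
    (Polynomial.isRegular_X_pow _).left.eq_iff, mul_fromCols, fromRows_mul_fromCols, ← e,
    ← Matrix.mul_assoc, ← Matrix.mul_assoc (U' 0), b.ss, b.ts, Matrix.one_mul, Matrix.zero_mul,
    charpoly_fromBlocks_zero₂₁] at d
  exact ⟨_, d.symm⟩

/-- the residue formula with eigenvalues -/
theorem inv_roots (g : Good A l z) (hn : 0 < n) (hS : Sub A z.g k S) (hI : InvC A z S) :
    ∃ s ≤ z.R.charpoly.roots, s.card = k ∧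
      z.lam * ((n * degS A z.g k S - k * A.deg l : ℝ) : ℂ) = -(n * s.sum) := by
  obtain ⟨T, c, a, b, d⟩ := inv_deg g hn hS hI
  exact ⟨_, Polynomial.roots.le_of_dvd z.R.charpoly_monic.ne_zero (dvd_of a b), by
    rw [IsAlgClosed.card_roots_eq_natDegree, charpoly_natDegree_eq_dim, Fintype.card_fin],
    trace_eq_sum_roots_charpoly c ▸ d⟩

/-- **IRR** -/
theorem irr {τ : Ty n} {o : Fin n} {j : Fin τ.m} {κ : ℝ} (h : P275HE.HTy τ o j κ) :
    P275HE.IRR A l τ j := fun z g hR h1 h2 k S k0 kn hS hI => by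
  obtain ⟨T, c, a, b, d⟩ := inv_deg g (k0.trans kn) hS hI
  obtain ⟨m, e⟩ := sum_two (n := n) (β := κ * τ.η z.R j) c.charpoly.roots fun μ x => by
    have := root_of a b x
    rw [h.chp _ hR, h.eta _ hR] at this
    simp only [Polynomial.eval_mul, Polynomial.eval_pow, Polynomial.eval_sub, Polynomial.eval_X,
      Polynomial.eval_C, mul_eq_zero, sub_eq_zero] at this
    exact this.imp_right fun y => sub_eq_zero.1 (eq_zero_of_pow_eq_zero y)
  rw [trace_eq_sum_roots_charpoly, e, IsAlgClosed.card_roots_eq_natDegree,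
    charpoly_natDegree_eq_dim, Fintype.card_fin] at d
  have f := congrArg im d
  rw [im_mul_ofReal, h1, zero_mul] at f
  simp only [neg_im, mul_im, natCast_re, natCast_im, sub_re, sub_im, mul_re, ofReal_re, ofReal_im,
    zero_mul, mul_zero, add_zero, sub_zero, zero_eq_neg, mul_eq_zero, h2, h.ne, or_false,
    Nat.cast_eq_zero, (k0.trans kn).ne', false_or, sub_eq_zero] at f
  have f' : k = m * n := by exact_mod_cast f
  exact (Nat.le_of_dvd k0 (Dvd.intro_left m f'.symm)).not_gt kn

end Vale.Agent.P275KR
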