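import Vale.Agent.P275KR.Zd
import Vale.Agent.P275RR.Frame

/-!
# Degrees are integers
-/

set_option linter.unusedSectionVars false

open scoped Matrix.Norms.Operator Topology
open Filter Set Matrix Metric Module

noncomputable section

namespace Vale.Agent.P275KR

open Vale.Agent.P281Z.Hm Vale.Agent.P275NA Vale.Agent.P275GC Vale.Agent.P275GC.At

variable {C : Type} [TopologicalSpace C] [T2Space C] [ConnectedSpace C] {A : At C} {n r : ℕ}
  {g : Cy A (Mn n)}

theorem frm (A : At C) : FRM A := fun n g hg => by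
  obtain ⟨x⟩ : Nonempty C := inferInstance
  obtain ⟨m, h⟩ := P275RR.frameM hg x
  obtain ⟨u, a, b, c⟩ := h m le_rfl
  have d := (A.cc_ox x).pow (m + 1)
  refine ⟨_, (m + 1 : ℕ), u, d, by rw [deg_pow (A.cc_ox x), deg_ox, mul_one, Int.cast_natCast],
    ⟨a, fun i j z hz => (mul_one _).trans (b i j z hz), fun _ _ _ => d.ne⟩, _, _,
    P275RR.pc_ball x, by rw [c, det_one]; exact one_ne_zero⟩

/-- the degree of a subbundle is an integer -/
theorem degS_int' (hg : A.Cc g) {S : Fm A (Sp n)} (hS : Sub A g r S) : ∃ k : ℤ, degS A g r S = k :=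
  degS_int (frm A) hg hS

theorem degM_int' (hg : A.Cc g) : ∃ k : ℤ, A.degM g = k := degM_int (frm A) hg

theorem Sb.deg_int' {hg : A.Cc g} (V : Sb hg) : ∃ k : ℤ, V.deg = k := Sb.deg_int (frm A) V

end Vale.Agent.P275KR
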