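import Vale.Agent.P275KR.Dg

/-!
# The block `KEY`; stable Higgs bundles
-/

set_option linter.unusedSectionVars false

open scoped Matrix.Norms.Operator Topology ComplexOrder ContDiff
open Filter Set Matrix Metric Complex

noncomputable section

namespace Vale.Agent.P275KR

open Vale.Agent.P281Z.Hm Vale.Agent.P275NA Vale.Agent.P275GC Vale.Agent.P275GC.At

variable {C : Type} [TopologicalSpace C] [T2Space C] [ConnectedSpace C] {A : At C} {m n : ℕ}
  {i j : Fin A.N} {z : ℂ} {g : Cy A (Mn n)} {g' : Cy A (Mn m)} {hg : A.Cc g} {hg' : A.Cc g'}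
  {l : Cy A ℂ} {u : Fm A (Mr m n)} {a : Fm A (Mn n)} {a' : Fm A (Mn m)}

namespace Sb

theorem Into.comap {V W : Sb hg'} (h : Into a' V W) (hu : Mor g g' l u) (ha : A.Hl a)
    (e : ∀ i, ∀ z ∈ ball (0 : ℂ) A.R, u i z * a i z = a' i z * u i z) :
    Into a (comap hg hu V) (comap hg hu W) := into_of_ev ha fun i z hz => by
  filter_upwards [comap_ev (hg := hg) hu W i hz,
    mem_nhdsWithin_of_mem_nhds (isOpen_ball.mem_nhds hz)] with w b c v hv
  rw [b]
  show u i w *ᵥ (a i w *ᵥ v) ∈ W.S i w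
  rw [mulVec_mulVec, e i w c, ← mulVec_mulVec]
  exact h i w c _ (into_comap hu V i w c v hv)

theorem Into.map {V W : Sb hg} (h : Into a V W) (hu : Mor g g' l u) (ha : A.Hl a')
    (e : ∀ i, ∀ z ∈ ball (0 : ℂ) A.R, u i z * a i z = a' i z * u i z) :
    Into a' (map hg' hu V) (map hg' hu W) := into_of_ev ha fun i z hz => by
  filter_upwards [map_ev (hg' := hg') hu V i hz,
    mem_nhdsWithin_of_mem_nhds (isOpen_ball.mem_nhds hz)] with w b c v hv
  obtain ⟨x, d, rfl⟩ := b ▸ hv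
  rw [mulVecLin_apply, mulVec_mulVec, ← e i w c, ← mulVec_mulVec]
  exact into_map hu W i w c _ (h i w c x d)

theorem inv_ker (hu : Hom A g a g' a' u) (ha : A.Hl a) : Inv A a (ker hg hg' (hom_mor hu)).S :=
  (into_bot ⊥).comap _ ha hu.com

theorem inv_im (hu : Hom A g a g' a' u) (ha : A.Hl a') : Inv A a' (im hg hg' (hom_mor hu)).S :=
  (into_top ⊤).map _ ha hu.com

/-- the Chern-Weil inequality -/
theorem cvS_le {w : Fm A ℝ} {h : Fm A (Mn n)} (hh : A.MtM ∞ g h) (V : Sb hg) (hV : Inv A a V.S)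
    (hz : z ∈ ball (0 : ℂ) A.R) {t : ℂ → Mr n V.r} (ht : FrAt (V.S i) t z) :
    cvS A V.r h V.S i z ≤ (trace (P275NA.pr (h i z) (t z) * HK A w a h i z)).re := by
  obtain ⟨c, hc⟩ := P275DG.ex_fac (s := sa A w a i z * t z) (t := t z) fun v => by
    rw [ht.rg.self_of_nhds, ← mulVec_mulVec, sa, smul_mulVec]
    exact Submodule.smul_mem _ _ (hV i z hz _ (ht.rg.self_of_nhds ▸ ⟨v, rfl⟩))
  rw [P275DG.cvS_eq hh hz ht]
  exact (P275HK.sff _ _ _ _ t c z (P275DG.met_of hh hz i) ht.an ht.inj hc).2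

theorem int_cvS' {h : Fm A (Mn n)} (hh : A.MtM ∞ g h) (V : Sb hg) :
    Real.pi⁻¹ * A.int (cvS A V.r h V.S) = V.deg := congrArg _ (P275DG.int_cvS hg hh hg.mtM V.sub)

end Sb

open Sb

theorem key (A : At C) : KEY A := by
  intro m n l w g a g' a' h u _ ha ha' hh hu
  refine ⟨(im ha.cc ha'.cc (hom_mor hu)).r, _, (Sb.ker ha.cc ha'.cc (hom_mor hu)).S, r_im_add _,
    Sb.sub _, inv_ker hu ha.hol, fun i z hz => ⟨fun v hv => ?_, ?_⟩, fun β b1 b2 => ?_⟩
  · have := into_comap (hom_mor hu) (⊥ : Sb ha'.cc) i z hz v hv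
    rwa [bot_S hz] at this
  · filter_upwards [map_ev (hg' := ha'.cc) (hom_mor hu) (⊤ : Sb ha.cc) i hz,
      mem_nhdsWithin_of_mem_nhds (isOpen_ball.mem_nhds hz)] with x b c
    rw [← Sb.rank _ i c, b, top_S c, Submodule.map_top, Matrix.rank]
  · obtain ⟨N, c, -⟩ := deg_im (hg := ha.cc) (hg' := ha'.cc) A.cc_one (hom_mor hu)
    rw [deg_one, mul_zero, add_zero, ← int_cvS' hh (im _ _ _)] at c
    refine ((le_add_of_nonneg_right N.cast_nonneg).trans_eq c).trans
      (mul_le_mul_of_nonneg_left ?_ (inv_nonneg.2 Real.pi_pos.le))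
    have d := (P275DG.sm_cvS hh (im ha.cc ha'.cc (hom_mor hu)).sub).ct
    refine int_mono d.in b1.in fun i z hz => ?_
    have hz' : z ∈ ball (0 : ℂ) A.R := mem_of_le hz.le
    obtain ⟨t, ht⟩ := (im ha.cc ha'.cc (hom_mor hu)).sub.fr i z hz'
    refine le_of_tendsto_of_tendsto (b := 𝓝[≠] z) ((d.at hz' i).tendsto.mono_left nhdsWithin_le_nhds)
      ((b1.at hz' i).tendsto.mono_left nhdsWithin_le_nhds) ?_
    filter_upwards [map_ev (hg' := ha'.cc) (hom_mor hu) (⊤ : Sb ha.cc) i hz',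
      ((fr_ev ht).and (isOpen_ball.mem_nhds hz')).filter_mono nhdsWithin_le_nhds] with x b e
    refine (cvS_le hh _ (inv_im hu ha'.hol) e.2 e.1).trans (b2 i x e.2 _ e.1.inj ?_)
    rw [e.1.rg.self_of_nhds, b, top_S e.2, Submodule.map_top]

theorem stab_iff (hg : A.Cc g) : Stab A g a ↔ ∀ V : Sb hg, 0 < V.r → V.r < n → Into a V V →
    n * V.deg < V.r * A.degM g :=
  ⟨fun h V a b c => h _ _ a b V.sub c, fun h r S a b c d => by
    have := h (of hg c) a b fun i z hz => by rw [of_S c hz]; exact d i z hz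
    rwa [of_deg] at this⟩

/-- a non-zero map of stable Higgs bundles of the same rank and degree is an isomorphism -/
theorem iso_of_stab {g' : Cy A (Mn n)} {a' u : Fm A (Mn n)} (ha : Hig A l g a) (ha' : Hig A l g' a')
    (hs : Stab A g a) (hs' : Stab A g' a') (hu : Hom A g a g' a' u) (hd : A.degM g' ≤ A.degM g)
    (h0 : ¬ ∀ i, ∀ z ∈ ball (0 : ℂ) A.R, u i z = 0) (i : Fin A.N) (hz : z ∈ ball (0 : ℂ) A.R) :
    (u i z).det ≠ 0 :=
  det_ne_of_stab (hg := ha.cc) (hg' := ha'.cc) (hom_mor hu)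
    (fun b c => hs _ _ b c (Sb.sub _) (inv_ker hu ha.hol))
    (fun b c => (hs' _ _ b c (Sb.sub _) (inv_im hu ha'.hol)).le) hd h0 i hz

/-- the degrees of subbundles are bounded above -/
theorem deg_le {h : Fm A (Mn n)} (hh : A.MtM ∞ g h) (V : Sb hg) : V.deg ≤
    Real.pi⁻¹ * A.int fun i z => √(nq (h i z) (h i z) (cv (h i) z)) * n := by
  rw [← int_cvS' hh]
  refine mul_le_mul_of_nonneg_left (int_mono (P275DG.sm_cvS hh V.sub).ct.in
    (Ct.in fun i z hz => ?_) fun i z hz => ?_) (inv_nonneg.2 Real.pi_pos.le)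
  · have a := hh.sm.at hz i
    have b := (hh.pos i z hz).det_pos.ne'
    exact ((P275HK.cd_nq a b a (P275HK.cd_db (N := ∞) (P275HK.cd_mul (P275HK.cd_inv a b)
      (P275HK.cd_dz (N := ∞) a))).neg).continuousAt.sqrt.mul continuousAt_const).continuousWithinAt
  · have hz' : z ∈ ball (0 : ℂ) A.R := mem_of_le hz.le
    obtain ⟨t, ht⟩ := V.sub.fr i z hz'
    have p := hh.pos i z hz'
    have q := P275DG.pd_gr p ht.inj
    refine (cvS_le (a := fun _ _ => 0) (w := fun _ _ => 1) hh V (fun _ _ _ _ _ => by simp)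
      hz' ht).trans ?_
    have e : HK A (fun _ _ => 1) (fun _ _ => 0) h i z = cv (h i) z := by simp [HK, sa, hk, br]
    rw [e, ← P275HK.pr_eq]
    refine (le_abs_self _).trans ((((P275HK.nrm _ _).2 _ _ (t z) 0 _ _ q p
      (Real.sqrt_nonneg _)).2.2.2 (Real.sq_sqrt (P275HK.nq_nonneg p p _)).ge).trans ?_)
    refine mul_le_mul_of_nonneg_left ?_ (Real.sqrt_nonneg _)
    rw [nq, P275HK.ad_gram q, trace_one, natCast_re, Fintype.card_fin]
    exact_mod_cast V.r_le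

theorem deg_bdd (hg : A.Cc g) : ∃ M : ℝ, ∀ V : Sb hg, V.deg ≤ M := ⟨_, deg_le hg.mtM⟩

end Vale.Agent.P275KR
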