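import Vale.Agent.P275KR.Dg

/-!
# Degrees of subbundles are integers
-/

set_option linter.unusedSectionVars false

open scoped Matrix.Norms.Operator Topology
open Filter Set Matrix Metric Module

noncomputable section

namespace Vale.Agent.P275KR

open Vale.Agent.P281Z.Hm Vale.Agent.P275NA Vale.Agent.P275GC Vale.Agent.P275GC.At

variable {C : Type} [TopologicalSpace C] [T2Space C] [ConnectedSpace C] {A : At C} {m n : ℕ}
  {i j : Fin A.N} {z : ℂ} {g : Cy A (Mn n)} {g' : Cy A (Mn m)} {hg : A.Cc g} {hg' : A.Cc g'}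
  {l : Cy A ℂ}

/-- a twist of every bundle contains a trivial bundle of the same rank -/
def FRM (A : At C) : Prop := ∀ (n : ℕ) (g : Cy A (Mn n)), A.Cc g → ∃ (l : Cy A ℂ) (k : ℤ)
  (u : Fm A (Mn n)), A.Cc l ∧ A.deg l = k ∧ Mor (fun _ _ _ => 1) g l u ∧
    ∃ i, ∃ z ∈ ball (0 : ℂ) A.R, (u i z).det ≠ 0

namespace Sb

theorem inf_ker_bot {u : Fm A (Mr m n)} (hu : Mor g g' l u) (V : Sb hg)
    (hz : z ∈ ball (0 : ℂ) A.R) (h : ∀ v ∈ V.S i z, u i z *ᵥ v = 0 → v = 0) :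
    V ⊓ ker hg hg' hu = ⊥ := by
  obtain ⟨t, ht⟩ := V.sub.fr i z hz
  refine le_bot_iff.1 (le_of_freq (i := i) hz (Eventually.frequently ?_))
  filter_upwards [inf_ev V (ker hg hg' hu) i hz, comap_ev (hg := hg) hu (⊥ : Sb hg') i hz,
    ((P275DG.ev_inj (an_mul (hu.hol.an hz i) ht.an) fun x y e => ht.inj (sub_eq_zero.1 (by
      rw [← mulVec_sub]
      exact h _ (ht.rg.self_of_nhds ▸ ⟨_, rfl⟩) (by
        rw [mulVec_mulVec, mulVec_sub, e, sub_self])))).and
      (ht.rg.and (isOpen_ball.mem_nhds hz))).filter_mono nhdsWithin_le_nhds] with w a b c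
  rw [a, b, bot_S c.2.2, ← c.2.1]
  rintro _ ⟨⟨x, rfl⟩, d⟩
  rw [c.1 (a₁ := x) (a₂ := 0) (by rw [← mulVec_mulVec, mulVec_zero]; exact d), map_zero]
  exact zero_mem _

theorem r_comap {g' : Cy A (Mn n)} {hg' : A.Cc g'} {u : Fm A (Mn n)} (hu : Mor g g' l u)
    (V : Sb hg') (hz : z ∈ ball (0 : ℂ) A.R) (h : (u i z).det ≠ 0) : (comap hg hu V).r = V.r := by
  obtain ⟨w, a, b, c⟩ := ((comap_ev (hg := hg) hu V i hz).and
    ((((an_det (hu.hol.an hz i)).continuousAt.eventually_ne h).and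
      (isOpen_ball.mem_nhds hz)).filter_mono nhdsWithin_le_nhds)).exists
  have d := (isUnit_iff_isUnit_det _).2 b.isUnit
  rw [← rank _ i c, ← rank _ i c, a, (Submodule.equivMapOfInjective (u i w).mulVecLin
    (mulVec_injective_iff_isUnit.2 d) _).finrank_eq,
    Submodule.map_comap_eq_of_surjective (mulVec_surjective_iff_isUnit.2 d)]

theorem degM_one (A : At C) (n : ℕ) : (A.degM fun _ _ _ => (1 : Mn n)) = 0 := by
  simp only [degM, det_one]
  exact deg_one A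

/-- subbundles of trivial bundles -/
theorem deg_triv (V : Sb (A.cc_one (R := Mn n))) : ∃ N : ℕ, V.deg = -N := by
  obtain ⟨i, z, hz⟩ := ex_pt A
  obtain ⟨q, ⟨F⟩⟩ := V.fr i hz
  have hu : Mor (A := A) (fun _ _ _ => (1 : Mn n)) (fun _ _ _ => (1 : Mn V.r)) (fun _ _ _ => 1)
      fun _ _ => F.t' z :=
    ⟨fun _ => differentiableOn_const _, fun _ _ _ _ => by simp, fun _ _ _ _ => one_ne_zero⟩
  obtain ⟨N, a, -⟩ := quot A.cc_one hu (bot_le (a := V)) (bot_le (a := (⊤ : Sb A.cc_one)))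
    (into_bot _) (into_top _) (zero_add _) (zero_add _) (inf_ker_bot hu V hz fun v b c => by
      obtain ⟨x, rfl⟩ := F.rg.self_of_nhds ▸ b
      rw [mulVecLin_apply, mulVec_mulVec, F.blk.self_of_nhds.ss, one_mulVec] at c
      rw [c, map_zero]).le
  rw [deg_bot, deg_bot, deg_top, deg_one, degM_one] at a
  exact ⟨N, by linarith⟩

theorem deg_int (fr : FRM A) (V : Sb hg) : ∃ k : ℤ, V.deg = k := by
  obtain ⟨l, k, u, hl, hk, hu, i, z, hz, h⟩ := fr n g hg
  obtain ⟨M, b⟩ := deg_triv (comap A.cc_one hu V)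
  obtain ⟨N, a, -⟩ := quot hl hu (bot_le (a := comap A.cc_one hu V)) (bot_le (a := V))
    (into_bot _) (into_comap _ _) ((zero_add _).trans (r_comap hu V hz h).symm) (zero_add _)
    (inf_ker_bot hu _ hz fun v _ c => eq_zero_of_mulVec_eq_zero h c).le
  rw [deg_bot, deg_bot, hk, b] at a
  exact ⟨N - M - V.r * k, by push_cast; linarith⟩

end Sb

theorem degS_int (fr : FRM A) (hg : A.Cc g) {r : ℕ} {S : Fm A (Sp n)} (h : Sub A g r S) :
    ∃ k : ℤ, degS A g r S = k := Sb.of_deg (hg := hg) h ▸ Sb.deg_int fr _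

theorem degM_int (fr : FRM A) (hg : A.Cc g) : ∃ k : ℤ, A.degM g = k :=
  Sb.deg_top (hg := hg) ▸ Sb.deg_int fr _

end Vale.Agent.P275KR
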