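import Vale.Agent.P275KR.Fr

/-!
# The lattice of subbundles
-/

set_option linter.unusedSectionVars false
set_option linter.unusedVariables false

open scoped Matrix.Norms.Operator Topology
open Filter Set Matrix Metric Module

noncomputable section

namespace Vale.Agent.P275KR

open Vale.Agent.P281Z.Hm Vale.Agent.P275NA Vale.Agent.P275GC Vale.Agent.P275GC.At

variable {C : Type} [TopologicalSpace C] {A : At C} {m n r : ℕ} {i j : Fin A.N} {z : ℂ}
  {g : Cy A (Mn n)} {g' : Cy A (Mn m)}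

/-- subbundles of the bundle with cocycle `g` -/
structure Sb (hg : A.Cc g) where
  r : ℕ
  S : Fm A (Sp n)
  sub : Sub A g r S
  out : ∀ i z, z ∉ ball (0 : ℂ) A.R → S i z = ⊥

open Classical in
/-- cut off a family outside the discs -/
def cut (A : At C) (S : Fm A (Sp n)) : Fm A (Sp n) := fun i z =>
  if z ∈ ball (0 : ℂ) A.R then S i z else ⊥

theorem cut_eq {S : Fm A (Sp n)} (h : z ∈ ball (0 : ℂ) A.R) : cut A S i z = S i z := if_pos h

theorem cut_ev {S : Fm A (Sp n)} (h : z ∈ ball (0 : ℂ) A.R) : ∀ᶠ w in 𝓝 z, S i w = cut A S i w :=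
  eventually_of_mem (isOpen_ball.mem_nhds h) fun _ a => (cut_eq a).symm

theorem sub_congr {S S' : Fm A (Sp n)} (h : Sub A g r S)
    (e : ∀ i, ∀ z ∈ ball (0 : ℂ) A.R, S i z = S' i z) : Sub A g r S' where
  fr i z hz := (h.fr i z hz).imp fun _ a => fr_congr a
    (eventually_of_mem (isOpen_ball.mem_nhds hz) (e i))
  tr i j z hz := by rw [← e i z hz.1, ← e j _ (tr_ball hz), h.tr i j z hz]

theorem int_congr' {F : Type} [NormedAddCommGroup F] [NormedSpace ℝ F] {u v : Fm A F}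
    (h : ∀ i, ∀ z ∈ ball (0 : ℂ) A.R, u i z = v i z) : A.int u = A.int v := by
  refine Finset.sum_congr rfl fun i _ => congrArg _ (funext fun z => ?_)
  by_cases e : 1 ≤ ‖z‖
  · rw [χ_zero e, zero_smul, zero_smul]
  · rw [h i z (mem_of_le (not_le.1 e).le)]

theorem cvS_congr {S S' : Fm A (Sp n)} (k : Fm A (Mn n))
    (e : ∀ i, ∀ z ∈ ball (0 : ℂ) A.R, S i z = S' i z) (h : z ∈ ball (0 : ℂ) A.R) :
    cvS A r k S i z = cvS A r k S' i z := by
  have a : ∀ᶠ w in 𝓝 z, S i w = S' i w := eventually_of_mem (isOpen_ball.mem_nhds h) (e i)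
  have b : (fun t : ℂ → Mr n r => FrAt (S i) t z) = fun t => FrAt (S' i) t z :=
    funext fun t => propext ⟨fun c => fr_congr c a, fun c => fr_congr c (a.mono fun _ => Eq.symm)⟩
  have c : ∀ P Q : (ℂ → Mr n r) → Prop, P = Q → ∀ f : (ℂ → Mr n r) → ℝ,
      (open Classical in if h : ∃ t, P t then f h.choose else 0) =
      (open Classical in if h : ∃ t, Q t then f h.choose else 0) := by
    rintro _ _ rfl _
    rfl
  exact c _ _ b fun t => (trace (cv (fun x => (t x)ᴴ * k i x * t x) z)).re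

theorem degS_congr {S S' : Fm A (Sp n)} (e : ∀ i, ∀ z ∈ ball (0 : ℂ) A.R, S i z = S' i z) :
    degS A g r S = degS A g r S' := by
  rw [degS, degS, int_congr' fun i z h => cvS_congr _ e h]

theorem sub_top (hg : A.Cc g) : Sub A g n fun _ _ => ⊤ where
  fr i z _ := ⟨fun _ => 1, analyticAt_const, inj_of_linv (Matrix.one_mul 1),
    Eventually.of_forall fun _ => by simp⟩
  tr i j z h := tr_eq_of_le hg (P := fun _ _ => ⊤) (fun _ _ _ _ => le_top) h

theorem sub_bot : Sub A g 0 fun _ _ => ⊥ where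
  fr i z _ := ⟨fun _ => 0, analyticAt_const, fun _ _ _ => Subsingleton.elim _ _,
    Eventually.of_forall fun _ => by simp⟩
  tr i j z h := by simp

/-- twisted homomorphisms from `g` to `g' ⊗ l` -/
structure Mor (g : Cy A (Mn n)) (g' : Cy A (Mn m)) (l : Cy A ℂ) (u : Fm A (Mr m n)) : Prop where
  hol : A.Hl u
  tr : ∀ i j, ∀ z ∈ A.O i j, u i z * g i j z = l i j z • (g' i j z * u j (A.tr i j z))
  ne : ∀ i j, ∀ z ∈ A.O i j, l i j z ≠ 0

theorem hom_mor {a : Fm A (Mn n)} {a' : Fm A (Mn m)} {u : Fm A (Mr m n)}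
    (h : Hom A g a g' a' u) : Mor g g' (fun _ _ _ => 1) u :=
  ⟨h.hol, fun i j z hz => by rw [one_smul, h.tr i j z hz], fun _ _ _ _ => one_ne_zero⟩

theorem hig_mor {l : Cy A ℂ} {a : Fm A (Mn n)} (h : Hig A l g a) (hl : A.Cc l) : Mor g g l a :=
  ⟨h.hol, h.tr, fun _ _ _ hz => hl.ne hz⟩

theorem mor_id (g : Cy A (Mn n)) : Mor g g (fun _ _ _ => 1) fun _ _ => 1 :=
  ⟨fun _ => differentiableOn_const _, fun i j z _ => by simp, fun _ _ _ _ => one_ne_zero⟩

/-- families of subspaces which are subbundles off a discrete set -/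
structure Gen (g : Cy A (Mn n)) (P : Fm A (Sp n)) : Prop where
  loc : ∀ i, ∀ z ∈ ball (0 : ℂ) A.R, Loc (P i) z
  tr : ∀ i j, ∀ z ∈ A.O i j, (P j (A.tr i j z)).map (g i j z).mulVecLin ≤ P i z

theorem Gen.ex [PreconnectedSpace C] (hg : A.Cc g) {P : Fm A (Sp n)} (h : Gen g P) :
    ∃ r, Sub A g r fun i => sat (P i) := by
  have a : ∀ i j, ∀ z ∈ A.O i j,
      sat (P i) z = (sat (P j) (A.tr i j z)).map (g i j z).mulVecLin := fun i j z hz =>
    tr_eq_of_le hg (P := fun i => sat (P i)) (fun i j z hz => sat_tr hg hz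
      (mem_nhdsWithin_of_mem_nhds (eventually_of_mem (O_nhds hz) (h.tr i j)))) hz
  obtain ⟨r, hr⟩ := const_of_loc (A := A) (u := fun i z => finrank ℂ (sat (P i) z))
    (fun i j z hz => by
      show finrank ℂ (sat (P i) z) = finrank ℂ (sat (P j) (A.tr i j z))
      rw [a i j z hz]
      exact (Submodule.equivMapOfInjective _ (cc_inj hg hz) _).finrank_eq.symm)
    fun i z hz => by
      obtain ⟨r, t, b, -⟩ := (h.loc i z hz).fr
      exact (fr_ev b).mono fun w c => (fr_rank c).trans (fr_rank b).symm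
  refine ⟨r, fun i z hz => ?_, a⟩
  obtain ⟨s, t, b, -⟩ := (h.loc i z hz).fr
  obtain rfl : s = r := (fr_rank b).symm.trans (hr i z hz)
  exact ⟨t, b⟩

namespace Sb

variable {hg : A.Cc g} {hg' : A.Cc g'}

/-- the degree -/
def deg (V : Sb hg) : ℝ := degS A g V.r V.S

/-- the bundled form of a subbundle -/
def of (hg : A.Cc g) {S : Fm A (Sp n)} (h : Sub A g r S) : Sb hg :=
  ⟨r, cut A S, sub_congr h fun _ _ a => (cut_eq a).symm, fun _ _ a => if_neg a⟩

theorem of_S {S : Fm A (Sp n)} (h : Sub A g r S) (hz : z ∈ ball (0 : ℂ) A.R) :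
    (of hg h).S i z = S i z := cut_eq hz

theorem of_r {S : Fm A (Sp n)} (h : Sub A g r S) : (of hg h).r = r := rfl

theorem of_deg {S : Fm A (Sp n)} (h : Sub A g r S) : (of hg h).deg = degS A g r S :=
  degS_congr fun _ _ a => cut_eq a

theorem fr (V : Sb hg) (i : Fin A.N) (h : z ∈ ball (0 : ℂ) A.R) :
    ∃ q, Nonempty (Fr (V.S i) z V.r q) := by
  obtain ⟨t, a⟩ := V.sub.fr i z h
  obtain ⟨q, F, -⟩ := exists_fr a
  exact ⟨q, ⟨F⟩⟩

theorem rank (V : Sb hg) (i : Fin A.N) (h : z ∈ ball (0 : ℂ) A.R) : finrank ℂ (V.S i z) = V.r :=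
  (V.sub.fr i z h).elim fun _ => fr_rank

theorem tr (V : Sb hg) (h : z ∈ A.O i j) :
    V.S i z = (V.S j (A.tr i j z)).map (g i j z).mulVecLin := V.sub.tr i j z h

theorem mem_tr (V : Sb hg) (h : z ∈ A.O i j) {v : Fin n → ℂ} :
    g i j z *ᵥ v ∈ V.S i z ↔ v ∈ V.S j (A.tr i j z) := by
  rw [V.tr h]
  exact ⟨fun ⟨w, a, b⟩ => cc_inj hg h b ▸ a, fun a => ⟨v, a, rfl⟩⟩

theorem mem (V : Sb hg) (h : z ∈ ball (0 : ℂ) A.R) {u : ℂ → Fin n → ℂ} (hu : ContinuousAt u z)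
    (e : ∀ᶠ w in 𝓝[≠] z, u w ∈ V.S i w) : u z ∈ V.S i z :=
  (V.sub.fr i z h).elim fun _ a => fr_mem a hu e

theorem le_tr {V W : Sb hg} (h : z ∈ A.O i j) :
    V.S i z ≤ W.S i z ↔ V.S j (A.tr i j z) ≤ W.S j (A.tr i j z) := by
  rw [V.tr h, W.tr h, Submodule.map_le_map_iff_of_injective (cc_inj hg h)]

theorem ex_pt (A : At C) [Nonempty C] : ∃ (_ : Fin A.N) (z : ℂ), z ∈ ball (0 : ℂ) A.R :=
  ⟨(A.cov (Classical.arbitrary C)).choose, 0, mem_ball_self (one_pos.trans A.hR)⟩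

variable [ConnectedSpace C] {V W : Sb hg}

theorem ext' (h : ∀ i, ∀ z ∈ ball (0 : ℂ) A.R, V.S i z = W.S i z) : V = W := by
  obtain ⟨i, z, hz⟩ := ex_pt A
  have a : V.r = W.r := by rw [← V.rank i hz, ← W.rank i hz, h i z hz]
  have b : V.S = W.S := funext fun i => funext fun z => by
    by_cases e : z ∈ ball (0 : ℂ) A.R
    · exact h i z e
    · rw [V.out i z e, W.out i z e]
  cases V
  cases W
  cases a
  cases b
  rfl

instance : PartialOrder (Sb hg) where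
  le V W := ∀ i, ∀ z ∈ ball (0 : ℂ) A.R, V.S i z ≤ W.S i z
  le_refl _ _ _ _ := le_rfl
  le_trans _ _ _ a b i z h := (a i z h).trans (b i z h)
  le_antisymm _ _ a b := ext' fun i z h => le_antisymm (a i z h) (b i z h)

theorem le_def : V ≤ W ↔ ∀ i, ∀ z ∈ ball (0 : ℂ) A.R, V.S i z ≤ W.S i z := Iff.rfl

theorem le_ev (h : z ∈ ball (0 : ℂ) A.R) (e : ∃ᶠ w in 𝓝[≠] z, V.S i w ≤ W.S i w) :
    ∀ᶠ w in 𝓝 z, V.S i w ≤ W.S i w := by
  obtain ⟨t, a⟩ := V.sub.fr i z h
  obtain ⟨s, b⟩ := W.sub.fr i z h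
  exact fr_le_ev a b e

/-- the identity theorem for subbundles -/
theorem le_of_freq (h : z ∈ ball (0 : ℂ) A.R) (e : ∃ᶠ w in 𝓝[≠] z, V.S i w ≤ W.S i w) : V ≤ W := by
  have a : ∀ i j, ∀ z ∈ A.O i j, (∀ᶠ w in 𝓝 (A.tr i j z), V.S j w ≤ W.S j w) →
      ∀ᶠ w in 𝓝 z, V.S i w ≤ W.S i w := fun i j z hz b => by
    filter_upwards [O_nhds hz, (an_tr hz).continuousAt.eventually b] with w c d
    exact (le_tr c).2 d
  refine fun j w hw => (Fn.conn (P := fun i z => ∀ᶠ w in 𝓝 z, V.S i w ≤ W.S i w)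
    (fun i j z hz => propext ⟨fun b => a j i _ (tr_mem hz) (by rwa [tr_inv hz]), a i j z hz⟩)
    (fun _ _ _ b => b.eventually_nhds) (fun i z hz b => ?_) h (le_ev h e) j hw).self_of_nhds
  by_cases c : ∀ᶠ w in 𝓝 z, V.S i w ≤ W.S i w
  · exact c
  refine le_ev hz ?_
  rw [frequently_nhdsWithin_iff]
  exact b.mono fun w d => ⟨d.self_of_nhds, fun f => c (f ▸ d)⟩

theorem le_of_ev (e : ∀ i, ∀ z ∈ ball (0 : ℂ) A.R, ∀ᶠ w in 𝓝[≠] z, V.S i w ≤ W.S i w) : V ≤ W :=
  fun i z h => (le_ev h (e i z h).frequently).self_of_nhds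

theorem r_mono (h : V ≤ W) : V.r ≤ W.r := by
  obtain ⟨i, z, hz⟩ := ex_pt A
  rw [← V.rank i hz, ← W.rank i hz]
  exact Submodule.finrank_mono (h i z hz)

theorem eq_of_r (h : V ≤ W) (e : W.r ≤ V.r) : V = W := ext' fun i z hz =>
  Submodule.eq_of_le_of_finrank_le (h i z hz) (by rwa [V.rank i hz, W.rank i hz])

theorem r_strictMono : StrictMono (Sb.r : Sb hg → ℕ) := fun _ _ h =>
  not_le.1 fun e => h.ne (eq_of_r h.le e)

/-- the saturation of a generic subbundle -/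
def gen (hg : A.Cc g) {P : Fm A (Sp n)} (h : Gen g P) : Sb hg := of hg (h.ex hg).choose_spec

theorem gen_S {P : Fm A (Sp n)} (h : Gen g P) (hz : z ∈ ball (0 : ℂ) A.R) :
    (gen hg h).S i z = sat (P i) z := of_S (h.ex hg).choose_spec hz

theorem gen_ev {P : Fm A (Sp n)} (h : Gen g P) (i : Fin A.N) (hz : z ∈ ball (0 : ℂ) A.R) :
    ∀ᶠ w in 𝓝[≠] z, (gen hg h).S i w = P i w := by
  obtain ⟨r, t, -, a⟩ := (h.loc i z hz).fr
  filter_upwards [a, mem_nhdsWithin_of_mem_nhds (isOpen_ball.mem_nhds hz)] with w b c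
  exact (gen_S h c).trans b

theorem le_gen {P : Fm A (Sp n)} (h : Gen g P)
    (e : ∀ i, ∀ z ∈ ball (0 : ℂ) A.R, V.S i z ≤ P i z) : V ≤ gen hg h := le_of_ev fun i z hz => by
  filter_upwards [gen_ev (hg := hg) h i hz, mem_nhdsWithin_of_mem_nhds (isOpen_ball.mem_nhds hz)]
    with w a b
  exact a ▸ e i w b

theorem gen_le {P : Fm A (Sp n)} (h : Gen g P)
    (e : ∀ i, ∀ z ∈ ball (0 : ℂ) A.R, P i z ≤ V.S i z) : gen hg h ≤ V := le_of_ev fun i z hz => by
  filter_upwards [gen_ev (hg := hg) h i hz, mem_nhdsWithin_of_mem_nhds (isOpen_ball.mem_nhds hz)]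
    with w a b
  exact a ▸ e i w b

theorem gen_inf (V W : Sb hg) : Gen g fun i z => V.S i z ⊓ W.S i z where
  loc i z h := by
    obtain ⟨p, ⟨F⟩⟩ := V.fr i h
    obtain ⟨q, ⟨G⟩⟩ := W.fr i h
    refine Loc.of_kr (X := fun w => fromRows (F.T' w) (G.T' w)) (an_of fun a b => ?_)
      (((F.kr.and G.kr).filter_mono nhdsWithin_le_nhds).mono fun w c => by
        rw [kr_rows, c.1, c.2])
    rcases a with a | a
    · exact an_ent F.a4 a b
    · exact an_ent G.a4 a b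
  tr i j z h := by
    rw [V.tr h, W.tr h]
    exact Submodule.map_inf_le _

theorem gen_sup (V W : Sb hg) : Gen g fun i z => V.S i z ⊔ W.S i z where
  loc i z h := by
    obtain ⟨s, F⟩ := V.sub.fr i z h
    obtain ⟨t, G⟩ := W.sub.fr i z h
    refine Loc.of_rg (X := fun w => fromCols (s w) (t w)) (an_of fun a b => ?_)
      (((F.rg.and G.rg).filter_mono nhdsWithin_le_nhds).mono fun w c => by
        rw [rg_cols, ← c.1, ← c.2])
    rcases b with b | b
    · exact an_ent F.an a b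
    · exact an_ent G.an a b
  tr i j z h := by rw [V.tr h, W.tr h, Submodule.map_sup]

instance : Lattice (Sb hg) where
  inf V W := gen hg (gen_inf V W)
  sup V W := gen hg (gen_sup V W)
  inf_le_left V W := gen_le _ fun _ _ _ => inf_le_left
  inf_le_right V W := gen_le _ fun _ _ _ => inf_le_right
  le_inf _ _ _ a b := le_gen _ fun i z h => le_inf (a i z h) (b i z h)
  le_sup_left V W := le_gen _ fun _ _ _ => le_sup_left
  le_sup_right V W := le_gen _ fun _ _ _ => le_sup_right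
  sup_le _ _ _ a b := gen_le _ fun i z h => sup_le (a i z h) (b i z h)

instance : BoundedOrder (Sb hg) where
  top := of hg (sub_top hg)
  bot := of hg sub_bot
  le_top _ _ _ h := le_top.trans (of_S (sub_top hg) h).ge
  bot_le _ _ _ h := (of_S sub_bot h).le.trans bot_le

theorem top_S (h : z ∈ ball (0 : ℂ) A.R) : (⊤ : Sb hg).S i z = ⊤ := of_S (sub_top hg) h

theorem bot_S (h : z ∈ ball (0 : ℂ) A.R) : (⊥ : Sb hg).S i z = ⊥ := of_S sub_bot h

theorem top_r : (⊤ : Sb hg).r = n := rfl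

theorem bot_r : (⊥ : Sb hg).r = 0 := rfl

theorem r_le (V : Sb hg) : V.r ≤ n := r_mono (le_top (a := V))

theorem eq_bot (h : V.r = 0) : V = ⊥ := (eq_of_r bot_le h.le).symm

theorem eq_top (h : V.r = n) : V = ⊤ := eq_of_r le_top h.ge

theorem inf_ev (V W : Sb hg) (i : Fin A.N) (h : z ∈ ball (0 : ℂ) A.R) :
    ∀ᶠ w in 𝓝[≠] z, (V ⊓ W).S i w = V.S i w ⊓ W.S i w := gen_ev (gen_inf V W) i h

theorem sup_ev (V W : Sb hg) (i : Fin A.N) (h : z ∈ ball (0 : ℂ) A.R) :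
    ∀ᶠ w in 𝓝[≠] z, (V ⊔ W).S i w = V.S i w ⊔ W.S i w := gen_ev (gen_sup V W) i h

/-- a property which holds off a discrete set holds somewhere -/
theorem ex_gen {P : Fin A.N → ℂ → Prop} (h : ∀ i, ∀ z ∈ ball (0 : ℂ) A.R, ∀ᶠ w in 𝓝[≠] z, P i w) :
    ∃ i, ∃ z ∈ ball (0 : ℂ) A.R, P i z := by
  obtain ⟨i, z, hz⟩ := ex_pt A
  obtain ⟨w, a, b⟩ := ((h i z hz).and
    (mem_nhdsWithin_of_mem_nhds (isOpen_ball.mem_nhds hz))).exists
  exact ⟨i, w, b, a⟩

theorem r_sup_add_r_inf (V W : Sb hg) : (V ⊔ W).r + (V ⊓ W).r = V.r + W.r := by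
  obtain ⟨i, z, h, a, b⟩ := ex_gen fun i z h => (sup_ev V W i h).and (inf_ev V W i h)
  rw [← rank _ i h, ← rank _ i h, ← rank _ i h, ← rank _ i h, a, b,
    Submodule.finrank_sup_add_finrank_inf_eq]

variable {l : Cy A ℂ} {u : Fm A (Mr m n)}

theorem gen_map (hu : Mor g g' l u) (V : Sb hg) :
    Gen g' fun i z => (V.S i z).map (u i z).mulVecLin where
  loc i z h := by
    obtain ⟨t, F⟩ := V.sub.fr i z h
    exact Loc.of_rg (an_mul (hu.hol.an h i) F.an)
      ((F.rg.filter_mono nhdsWithin_le_nhds).mono fun w c => by rw [rg_mul, ← c])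
  tr i j z h := by
    rintro _ ⟨_, ⟨v, a, rfl⟩, rfl⟩
    refine ⟨(l i j z)⁻¹ • g i j z *ᵥ v, Submodule.smul_mem _ _ ((V.mem_tr h).2 a), ?_⟩
    simp only [mulVecLin_apply, mulVec_smul, mulVec_mulVec, hu.tr i j z h, smul_mulVec,
      inv_smul_smul₀ (hu.ne i j z h)]

theorem gen_comap (hu : Mor g g' l u) (W : Sb hg') :
    Gen g fun i z => (W.S i z).comap (u i z).mulVecLin where
  loc i z h := by
    obtain ⟨q, ⟨F⟩⟩ := W.fr i h
    exact Loc.of_kr (an_mul F.a4 (hu.hol.an h i))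
      ((F.kr.filter_mono nhdsWithin_le_nhds).mono fun w c => by rw [kr_mul, c])
  tr i j z h := by
    rintro _ ⟨v, a, rfl⟩
    show u i z *ᵥ (g i j z *ᵥ v) ∈ W.S i z
    rw [mulVec_mulVec, hu.tr i j z h, smul_mulVec, ← mulVec_mulVec]
    exact Submodule.smul_mem _ _ ((W.mem_tr h).2 a)

/-- the saturated image -/
def map (hg' : A.Cc g') (hu : Mor g g' l u) (V : Sb hg) : Sb hg' := gen hg' (gen_map hu V)

/-- the saturated preimage -/
def comap (hg : A.Cc g) (hu : Mor g g' l u) (W : Sb hg') : Sb hg := gen hg (gen_comap hu W)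

/-- `u` maps `V` to `W` -/
def Into (u : Fm A (Mr m n)) (V : Sb hg) (W : Sb hg') : Prop :=
  ∀ i, ∀ z ∈ ball (0 : ℂ) A.R, ∀ v ∈ V.S i z, u i z *ᵥ v ∈ W.S i z

theorem map_ev (hu : Mor g g' l u) (V : Sb hg) (i : Fin A.N) (h : z ∈ ball (0 : ℂ) A.R) :
    ∀ᶠ w in 𝓝[≠] z, (map hg' hu V).S i w = (V.S i w).map (u i w).mulVecLin :=
  gen_ev (gen_map hu V) i h

theorem comap_ev (hu : Mor g g' l u) (W : Sb hg') (i : Fin A.N) (h : z ∈ ball (0 : ℂ) A.R) :
    ∀ᶠ w in 𝓝[≠] z, (comap hg hu W).S i w = (W.S i w).comap (u i w).mulVecLin :=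
  gen_ev (gen_comap hu W) i h

theorem into_of_ev {W : Sb hg'} (hu : A.Hl u) (e : ∀ i, ∀ z ∈ ball (0 : ℂ) A.R, ∀ᶠ w in 𝓝[≠] z,
    ∀ v ∈ V.S i w, u i w *ᵥ v ∈ W.S i w) : Into u V W := fun i z h v hv => by
  obtain ⟨t, F⟩ := V.sub.fr i z h
  obtain ⟨y, rfl⟩ := F.rg.self_of_nhds ▸ hv
  exact W.mem h (u := fun w => u i w *ᵥ (t w *ᵥ y)) (ca_mulVec (hu.an h i).continuousAt
    (ca_mulVec F.an.continuousAt continuousAt_const))
    (((e i z h).and (F.rg.filter_mono nhdsWithin_le_nhds)).mono fun w a =>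
      a.1 _ (a.2 ▸ ⟨y, rfl⟩))

theorem map_le_iff {W : Sb hg'} (hu : Mor g g' l u) : map hg' hu V ≤ W ↔ Into u V W := by
  refine ⟨fun e => into_of_ev hu.hol fun i z h => ?_, fun e => gen_le _ fun i z h => ?_⟩
  · filter_upwards [map_ev (hg' := hg') hu V i h,
      mem_nhdsWithin_of_mem_nhds (isOpen_ball.mem_nhds h)] with w a b v hv
    exact e i w b (a ▸ ⟨v, hv, rfl⟩)
  · rintro _ ⟨v, a, rfl⟩
    exact e i z h v a

theorem le_comap_iff {W : Sb hg'} (hu : Mor g g' l u) : V ≤ comap hg hu W ↔ Into u V W := by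
  refine ⟨fun e => into_of_ev hu.hol fun i z h => ?_, fun e => le_gen _ fun i z h => e i z h⟩
  filter_upwards [comap_ev (hg := hg) hu W i h,
    mem_nhdsWithin_of_mem_nhds (isOpen_ball.mem_nhds h)] with w a b v hv
  have := e i w b hv
  rwa [a] at this

theorem into_map (hu : Mor g g' l u) (V : Sb hg) : Into u V (map hg' hu V) :=
  (map_le_iff hu).1 le_rfl

theorem into_comap (hu : Mor g g' l u) (W : Sb hg') : Into u (comap hg hu W) W :=
  (le_comap_iff hu).1 le_rfl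

theorem Into.mono {V' : Sb hg} {W W' : Sb hg'} (h : Into u V W) (a : V' ≤ V) (b : W ≤ W') :
    Into u V' W' := fun i z hz v hv => b i z hz (h i z hz v (a i z hz hv))

theorem Into.inf {V' : Sb hg} {W W' : Sb hg'} (hu : Mor g g' l u) (h : Into u V W)
    (h' : Into u V' W') : Into u (V ⊓ V') (W ⊓ W') :=
  (map_le_iff hu).1 (le_inf ((map_le_iff hu).2 (h.mono inf_le_left le_rfl))
    ((map_le_iff hu).2 (h'.mono inf_le_right le_rfl)))

theorem Into.sup {V' : Sb hg} {W W' : Sb hg'} (hu : Mor g g' l u) (h : Into u V W)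
    (h' : Into u V' W') : Into u (V ⊔ V') (W ⊔ W') :=
  (le_comap_iff hu).1 (sup_le ((le_comap_iff hu).2 (h.mono le_rfl le_sup_left))
    ((le_comap_iff hu).2 (h'.mono le_rfl le_sup_right)))

theorem into_top (V : Sb hg) : Into u V (⊤ : Sb hg') := fun _ _ h _ _ => by
  rw [top_S h]; trivial

theorem into_bot (W : Sb hg') : Into u (⊥ : Sb hg) W := fun _ _ h v hv => by
  rw [bot_S h, Submodule.mem_bot] at hv
  rw [hv, mulVec_zero]
  exact zero_mem _

theorem into_iff_inv {a : Fm A (Mn n)} : Into a V V ↔ Inv A a V.S := Iff.rfl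

/-- rank and nullity -/
theorem r_map_add (hu : Mor g g' l u) (V : Sb hg) :
    (map hg' hu V).r + (V ⊓ comap hg hu (⊥ : Sb hg')).r = V.r := by
  obtain ⟨i, z, h, a, b, c⟩ := ex_gen fun i z h => (map_ev (hg' := hg') hu V i h).and
    ((inf_ev V (comap hg hu (⊥ : Sb hg')) i h).and (comap_ev (hg := hg) hu (⊥ : Sb hg') i h))
  rw [← rank _ i h, ← rank _ i h, ← rank _ i h, a, b, c, bot_S h, Submodule.comap_bot,
    ← LinearMap.finrank_range_add_finrank_ker ((u i z).mulVecLin.domRestrict (V.S i z)),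
    LinearMap.range_domRestrict, LinearMap.ker_domRestrict,
    ← Submodule.finrank_map_subtype_eq (V.S i z), Submodule.map_comap_subtype]

end Sb

end Vale.Agent.P275KR
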