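import Vale.Agent.P275KR.Ker
import Vale.Agent.P275NA.Glob
import Vale.Agent.P275GC.Pu

/-!
# Local frames and saturation of families of subspaces
-/

set_option linter.unusedSectionVars false

open scoped Matrix.Norms.Operator Topology
open Filter Set Matrix Metric Module

noncomputable section

namespace Vale.Agent.P275KR

open Vale.Agent.P281Z.Hm Vale.Agent.P275NA Vale.Agent.P275GC Vale.Agent.P275GC.At

/-- subspaces -/
abbrev Sp (n : ℕ) : Type := Submodule ℂ (Fin n → ℂ)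

/-- the span of the columns -/
abbrev rg {p q : Type} [Fintype q] (t : Matrix p q ℂ) : Submodule ℂ (p → ℂ) :=
  LinearMap.range t.mulVecLin

/-- the kernel -/
abbrev kr {p q : Type} [Fintype q] (t : Matrix p q ℂ) : Submodule ℂ (q → ℂ) :=
  LinearMap.ker t.mulVecLin

section lin

variable {p q o : Type} [Fintype p] [Fintype q] [Fintype o] [DecidableEq q] {z : ℂ}

theorem exists_linv {t : Matrix p q ℂ} (h : Function.Injective t.mulVec) :
    ∃ L : Matrix q p ℂ, L * t = 1 := by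
  classical
  obtain ⟨f, hf⟩ := LinearMap.exists_leftInverse_of_injective t.mulVecLin
    (LinearMap.ker_eq_bot.2 h)
  refine ⟨LinearMap.toMatrix' f, toLin'.injective ?_⟩
  rw [toLin'_mul, toLin'_toMatrix', toLin'_one]
  exact hf

theorem inj_of_linv {t : Matrix p q ℂ} {L : Matrix q p ℂ} (h : L * t = 1) :
    Function.Injective t.mulVec := fun u v e => by
  have := congrArg (L *ᵥ ·) e
  simpa only [mulVec_mulVec, h, one_mulVec] using this

theorem an_linv {t : ℂ → Matrix p q ℂ} (ha : AnalyticAt ℂ t z)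
    (hi : Function.Injective (t z).mulVec) :
    ∃ t' : ℂ → Matrix q p ℂ, AnalyticAt ℂ t' z ∧ ∀ᶠ w in 𝓝 z, t' w * t w = 1 := by
  obtain ⟨L, hL⟩ := exists_linv hi
  have a : AnalyticAt ℂ (fun w => L * t w) z := an_mul analyticAt_const ha
  have b : (L * t z).det ≠ 0 := by rw [hL, det_one]; exact one_ne_zero
  refine ⟨fun w => (L * t w)⁻¹ * L, an_mul (an_inv a b) analyticAt_const, ?_⟩
  filter_upwards [(an_det a).continuousAt.eventually_ne b] with w hw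
  rw [Matrix.mul_assoc, nonsing_inv_mul _ hw.isUnit]

theorem finrank_rg {t : Matrix p q ℂ} (h : Function.Injective t.mulVec) :
    finrank ℂ (rg t) = Fintype.card q := by
  rw [LinearMap.finrank_range_of_inj h, finrank_fintype_fun_eq_card]

theorem rg_le_kr {t : Matrix p q ℂ} {X : Matrix o p ℂ} : rg t ≤ kr X ↔ X * t = 0 := by
  rw [LinearMap.range_le_ker_iff, ← mulVecLin_mul]
  exact ⟨fun h => toLin'.injective (h.trans (map_zero _).symm), fun h => by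
    rw [h, mulVecLin_zero]⟩

theorem rg_mul (X : Matrix o p ℂ) (t : Matrix p q ℂ) : rg (X * t) = (rg t).map X.mulVecLin := by
  rw [rg, mulVecLin_mul, LinearMap.range_comp]

theorem kr_mul (X : Matrix o p ℂ) (t : Matrix p q ℂ) : kr (X * t) = (kr X).comap t.mulVecLin := by
  rw [kr, mulVecLin_mul, LinearMap.ker_comp]

theorem rg_cols (s : Matrix p q ℂ) (t : Matrix p o ℂ) : rg (fromCols s t) = rg s ⊔ rg t := by
  refine le_antisymm ?_ (sup_le ?_ ?_)
  · rintro _ ⟨v, rfl⟩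
    rw [mulVecLin_apply, ← Sum.elim_comp_inl_inr v, fromCols_mulVec_sumElim]
    exact Submodule.add_mem_sup ⟨_, rfl⟩ ⟨_, rfl⟩
  · rintro _ ⟨v, rfl⟩
    exact ⟨Sum.elim v 0, by simp⟩
  · rintro _ ⟨v, rfl⟩
    exact ⟨Sum.elim 0 v, by simp⟩

theorem kr_rows (s : Matrix p q ℂ) (t : Matrix o q ℂ) : kr (fromRows s t) = kr s ⊓ kr t := by
  ext v
  simp [LinearMap.mem_ker, Sum.elim_eq_iff, ← Sum.elim_zero_zero]

/-- a matrix whose columns lie in the span of the columns of `t` -/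
theorem eq_mul_of_le {t : Matrix p q ℂ} {L : Matrix q p ℂ} {s : Matrix p o ℂ} (h : L * t = 1)
    (e : rg s ≤ rg t) : t * (L * s) = s := by
  classical
  refine toLin'.injective (LinearMap.ext fun v => ?_)
  obtain ⟨y, hy⟩ := e ⟨v, rfl⟩
  simp only [mulVecLin_apply] at hy
  simp only [toLin'_apply, ← mulVec_mulVec, ← hy]
  rw [mulVec_mulVec _ L, h, one_mulVec]

end lin

variable {m n r q : ℕ} {z : ℂ} {V W : ℂ → Sp n}

/-- A local frame `t` of `V` completed by `T` to a frame of `ℂ^n`, with the dual frame. -/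
structure Fr (V : ℂ → Sp n) (z : ℂ) (r q : ℕ) where
  t : ℂ → Mr n r
  T : ℂ → Mr n q
  t' : ℂ → Mr r n
  T' : ℂ → Mr q n
  a1 : AnalyticAt ℂ t z
  a2 : AnalyticAt ℂ T z
  a3 : AnalyticAt ℂ t' z
  a4 : AnalyticAt ℂ T' z
  blk : ∀ᶠ w in 𝓝 z, Blk (t w) (T w) (t' w) (T' w)
  rg : ∀ᶠ w in 𝓝 z, rg (t w) = V w

theorem exists_fr {t : ℂ → Mr n r} (h : FrAt V t z) : ∃ (q : ℕ) (F : Fr V z r q), F.t = t := by
  obtain ⟨t', a, b⟩ := an_linv h.an h.inj
  obtain ⟨q, T, T', c, d, e⟩ := exists_blk h.an a b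
  exact ⟨q, ⟨t, T, t', T', h.an, c, a, d, e.mono fun _ => Blk.symm, h.rg⟩, rfl⟩

theorem Fr.frAt (F : Fr V z r q) : FrAt V F.t z :=
  ⟨F.a1, inj_of_linv F.blk.self_of_nhds.ss, F.rg⟩

theorem Fr.kr (F : Fr V z r q) : ∀ᶠ w in 𝓝 z, kr (F.T' w) = V w := by
  filter_upwards [F.blk, F.rg] with w a b
  exact a.ker_eq.trans b

theorem Fr.card (F : Fr V z r q) : r + q = n := by simpa using F.blk.self_of_nhds.card

theorem fr_ev {t : ℂ → Mr n r} (h : FrAt V t z) : ∀ᶠ w in 𝓝 z, FrAt V t w := by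
  obtain ⟨t', -, b⟩ := an_linv h.an h.inj
  filter_upwards [h.an.eventually_analyticAt, b, h.rg.eventually_nhds] with w a c d
  exact ⟨a, inj_of_linv c, d⟩

theorem fr_rank {t : ℂ → Mr n r} (h : FrAt V t z) : finrank ℂ (V z) = r := by
  rw [← h.rg.self_of_nhds, finrank_rg h.inj, Fintype.card_fin]

theorem fr_congr {t : ℂ → Mr n r} (h : FrAt V t z) (e : ∀ᶠ w in 𝓝 z, V w = W w) : FrAt W t z :=
  ⟨h.an, h.inj, (h.rg.and e).mono fun _ a => a.1.trans a.2⟩

theorem sat_mono (h : ∀ᶠ w in 𝓝[≠] z, V w ≤ W w) : sat V z ≤ sat W z := by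
  rintro _ ⟨u, a, rfl, b⟩
  exact ⟨u, a, rfl, (h.and b).mono fun _ c => c.1 c.2⟩

theorem fr_sat {t : ℂ → Mr n r} (h : FrAt V t z) : sat V z = V z := by
  obtain ⟨t', a, b⟩ := an_linv h.an h.inj
  rw [sat_eq h.an.continuousAt a.continuousAt (b.filter_mono nhdsWithin_le_nhds)
    ((h.rg.mono fun _ e => e.symm).filter_mono nhdsWithin_le_nhds), h.rg.self_of_nhds]

/-- subbundles are closed -/
theorem fr_mem {t : ℂ → Mr n r} (h : FrAt V t z) {u : ℂ → Fin n → ℂ} (hu : ContinuousAt u z)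
    (e : ∀ᶠ w in 𝓝[≠] z, u w ∈ V w) : u z ∈ V z := fr_sat h ▸ ⟨u, hu, rfl, e⟩

theorem fr_le_ev {t : ℂ → Mr n r} {s : ℂ → Mr n q} (h : FrAt V t z) (h' : FrAt W s z)
    (e : ∃ᶠ w in 𝓝[≠] z, V w ≤ W w) : ∀ᶠ w in 𝓝 z, V w ≤ W w := by
  obtain ⟨p, F, -⟩ := exists_fr h'
  have a : ∀ᶠ w in 𝓝 z, (V w ≤ W w ↔ F.T' w * t w = 0) := by
    filter_upwards [h.rg, F.kr] with w a b
    rw [← a, ← b, rg_le_kr]
  have b := (an_mul F.a4 h.an).frequently_zero_iff_eventually_zero.1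
    ((e.and_eventually (a.filter_mono nhdsWithin_le_nhds)).mono fun _ c => c.2.1 c.1)
  exact (a.and b).mono fun _ c => c.1.2 c.2

/-- off `z`, the family `P` has a frame which extends to `z` -/
def Loc (P : ℂ → Sp n) (z : ℂ) : Prop := ∃ (r : ℕ) (t : ℂ → Mr n r), AnalyticAt ℂ t z ∧
  Function.Injective (t z).mulVec ∧ ∀ᶠ w in 𝓝[≠] z, P w = rg (t w)

theorem Loc.of_kr {p : Type} [Fintype p] {X : ℂ → Matrix p (Fin n) ℂ} (hX : AnalyticAt ℂ X z)
    (h : ∀ᶠ w in 𝓝[≠] z, V w = kr (X w)) : Loc V z := by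
  classical
  obtain ⟨r, s, t, ⟨F⟩⟩ := exists_smith hX
  exact ⟨s, F.S, F.aS, inj_of_linv F.src.self_of_nhds.ss,
    (h.and F.ker_punct).mono fun _ a => a.1.trans a.2⟩

theorem Loc.of_rg {p : Type} [Fintype p] {X : ℂ → Matrix (Fin n) p ℂ} (hX : AnalyticAt ℂ X z)
    (h : ∀ᶠ w in 𝓝[≠] z, V w = rg (X w)) : Loc V z := by
  classical
  obtain ⟨r, s, t, ⟨F⟩⟩ := exists_smith hX
  exact ⟨r, F.A, F.aA, inj_of_linv F.tgt.self_of_nhds.ss,
    (h.and F.range_punct).mono fun _ a => a.1.trans a.2⟩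

theorem Loc.fr (h : Loc V z) : ∃ (r : ℕ) (t : ℂ → Mr n r), FrAt (sat V) t z ∧
    ∀ᶠ w in 𝓝[≠] z, sat V w = V w := by
  obtain ⟨r, t, a, b, c⟩ := h
  obtain ⟨t', d, e⟩ := an_linv a b
  have f := sat_eq_near a d e c
  exact ⟨r, t, ⟨a, b, f.mono fun _ x => x.symm⟩,
    (c.and (f.filter_mono nhdsWithin_le_nhds)).mono fun _ x => x.2.trans x.1.symm⟩

/-- generalised inverses off the centre -/
theorem exists_ginv {p o : Type} [Fintype p] [Fintype o] {X : ℂ → Matrix p o ℂ}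
    (hX : AnalyticAt ℂ X z) : ∀ᶠ w in 𝓝[≠] z, ∃ Y : ℂ → Matrix o p ℂ, AnalyticAt ℂ Y w ∧
      ∀ᶠ x in 𝓝 w, X x * Y x * X x = X x := by
  classical
  obtain ⟨r, s, t, ⟨F⟩⟩ := exists_smith hX
  filter_upwards [self_mem_nhdsWithin, ((F.aT.eventually_analyticAt.and
    F.aA'.eventually_analyticAt).and
    (F.mul_T.and (F.tgt.and F.eq)).eventually_nhds).filter_mono nhdsWithin_le_nhds] with w ne h
  refine ⟨fun x => F.T x * (dg z F.k x)⁻¹ * F.A' x, an_mul (an_mul h.1.1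
    (an_inv (dg_an _ _) (dg_unit _ ne).ne_zero)) h.1.2, ?_⟩
  filter_upwards [h.2, isOpen_compl_singleton.mem_nhds ne] with x a b
  rw [← Matrix.mul_assoc, ← Matrix.mul_assoc, a.1,
    Matrix.mul_nonsing_inv_cancel_right _ _ (dg_unit _ b), a.2.2, Matrix.mul_assoc,
    ← Matrix.mul_assoc (F.A' x), ← Matrix.mul_assoc (F.A' x), a.2.1.ss, Matrix.one_mul,
    Matrix.mul_assoc]

variable {C : Type} [TopologicalSpace C] {A : At C} {i j : Fin A.N} {g : Cy A (Mn n)}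

theorem tr_punct (h : z ∈ A.O i j) : Tendsto (A.tr i j) (𝓝[≠] z) (𝓝[≠] (A.tr i j z)) := by
  refine tendsto_nhdsWithin_iff.2 ⟨(an_tr h).continuousAt.tendsto.mono_left nhdsWithin_le_nhds, ?_⟩
  filter_upwards [self_mem_nhdsWithin, mem_nhdsWithin_of_mem_nhds (O_nhds h)] with w a b e
  exact a (by rw [mem_singleton_iff, ← tr_inv b, e, tr_inv h])

theorem sat_tr (hg : A.Cc g) {P : Fm A (Sp n)} (h : z ∈ A.O i j)
    (e : ∀ᶠ w in 𝓝[≠] z, (P j (A.tr i j w)).map (g i j w).mulVecLin ≤ P i w) :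
    (sat (P j) (A.tr i j z)).map (g i j z).mulVecLin ≤ sat (P i) z := by
  rintro _ ⟨_, ⟨u, a, rfl, b⟩, rfl⟩
  exact ⟨fun w => g i j w *ᵥ u (A.tr i j w), ca_mulVec (hg.an h).continuousAt
    (a.comp (an_tr h).continuousAt), rfl, (e.and ((tr_punct h).eventually b)).mono
      fun w c => c.1 ⟨_, c.2, rfl⟩⟩

theorem tr_eq_of_le (hg : A.Cc g) {P : Fm A (Sp n)}
    (e : ∀ i j, ∀ z ∈ A.O i j, (P j (A.tr i j z)).map (g i j z).mulVecLin ≤ P i z)
    (h : z ∈ A.O i j) : P i z = (P j (A.tr i j z)).map (g i j z).mulVecLin := by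
  refine le_antisymm (fun v hv => ⟨g j i (A.tr i j z) *ᵥ v, e j i _ (tr_mem h) ⟨v, ?_, rfl⟩, ?_⟩)
    (e i j z h)
  · rwa [tr_inv h]
  · rw [mulVecLin_apply, mulVec_mulVec, hg.inv h, one_mulVec]

theorem cc_inj (hg : A.Cc g) (h : z ∈ A.O i j) : Function.Injective (g i j z).mulVecLin :=
  inj_of_linv (hg.inv' h)

/-- locally constant functions are constant -/
theorem const_of_loc [PreconnectedSpace C] {F : Type} [Inhabited F] {u : Fm A F} (hu : A.Fn u)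
    (h : ∀ i, ∀ z ∈ ball (0 : ℂ) A.R, ∀ᶠ w in 𝓝 z, u i w = u i z) :
    ∃ c, ∀ i, ∀ z ∈ ball (0 : ℂ) A.R, u i z = c := by
  by_cases e : ∃ i : Fin A.N, True
  · obtain ⟨i, -⟩ := e
    have h0 : (0 : ℂ) ∈ ball (0 : ℂ) A.R := mem_ball_self (one_pos.trans A.hR)
    exact ⟨u i 0, fun j w hw => Fn.conn (P := fun j w => u j w = u i 0)
      (fun a b x hx => congrArg (· = u i 0) (hu a b x hx))
      (fun a x hx p => (h a x hx).mono fun _ c => c.trans p)
      (fun a x hx p => by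
        obtain ⟨y, c, d⟩ := (p.and_eventually (h a x hx)).exists
        exact d.symm.trans c) h0 rfl j hw⟩
  · exact ⟨default, fun i => absurd ⟨i, trivial⟩ e⟩

end Vale.Agent.P275KR
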