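import Vale.Agent.P281Z.Hm.MCalc
import Mathlib.LinearAlgebra.FreeModule.PID
import Mathlib.Order.Filter.Germ.Basic
import Mathlib.Analysis.Analytic.IsolatedZeros

/-!
# The ring of germs of holomorphic functions of one variable; factorisation of matrices
-/

set_option linter.unusedSectionVars false

open scoped Matrix.Norms.Operator Topology
open Filter Set Matrix

noncomputable section

namespace Vale.Agent.P275KR

open Vale.Agent.P281Z.Hm

/-- Functions that are analytic at `c`. -/
def An (c : ℂ) : Subring (ℂ → ℂ) where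
  carrier := {f | AnalyticAt ℂ f c}
  mul_mem' := fun hf hg => AnalyticAt.mul hf hg
  one_mem' := analyticAt_const
  add_mem' := fun hf hg => AnalyticAt.add hf hg
  zero_mem' := analyticAt_const
  neg_mem' := fun hf => AnalyticAt.neg hf

/-- The germ of an analytic function. -/
def gm (c : ℂ) : An c →+* Germ (𝓝 c) ℂ := (Germ.coeRingHom (𝓝 c)).comp (An c).subtype

/-- The ring of germs. -/
def Rg (c : ℂ) : Type := (gm c).range

instance (c : ℂ) : CommRing (Rg c) := inferInstanceAs (CommRing (gm c).range)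

/-- The projection to the germs. -/
def pr (c : ℂ) : An c →+* Rg c := (gm c).rangeRestrict

variable {c : ℂ}

theorem pr_surj : Function.Surjective (pr c) := (gm c).rangeRestrict_surjective

theorem pr_eq {f g : An c} : pr c f = pr c g ↔ f.1 =ᶠ[𝓝 c] g.1 :=
  Subtype.ext_iff.trans Germ.coe_eq

/-- The coordinate. -/
def co (c : ℂ) : An c := ⟨fun z => z - c, analyticAt_id.sub analyticAt_const⟩

theorem unit_of {f : An c} (h : f.1 c ≠ 0) : IsUnit (pr c f) := by
  refine IsUnit.of_mul_eq_one (pr c ⟨fun z => (f.1 z)⁻¹, AnalyticAt.inv f.2 h⟩) ?_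
  rw [← map_mul, ← map_one (pr c), pr_eq]
  filter_upwards [(AnalyticAt.continuousAt f.2).eventually_ne h] with z hz
  exact mul_inv_cancel₀ hz

theorem fact {x : Rg c} (h : x ≠ 0) : ∃ (k : ℕ) (u : Rg c), IsUnit u ∧ x = pr c (co c) ^ k * u := by
  obtain ⟨f, rfl⟩ := pr_surj x
  have h' : ¬ ∀ᶠ z in 𝓝 c, f.1 z = 0 := fun e => h (by rw [← map_zero (pr c), pr_eq]; exact e)
  obtain ⟨k, g, hg, h0, e⟩ := (AnalyticAt.exists_eventuallyEq_pow_smul_nonzero_iff f.2).2 h'
  refine ⟨k, pr c ⟨g, hg⟩, unit_of h0, ?_⟩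
  rw [← map_pow, ← map_mul, pr_eq]
  exact e

theorem co_pow_ne (k : ℕ) : pr c (co c) ^ k ≠ 0 := by
  rw [← map_pow, ← map_zero (pr c), Ne, pr_eq]
  intro h
  have h1 : ∀ᶠ z in 𝓝[≠] c, (z - c) ^ k = 0 := h.filter_mono nhdsWithin_le_nhds
  obtain ⟨z, a, b⟩ := (h1.and self_mem_nhdsWithin).exists
  exact pow_ne_zero k (sub_ne_zero.2 b) a

instance : Nontrivial (Rg c) := ⟨⟨_, _, co_pow_ne 0⟩⟩

instance : NoZeroDivisors (Rg c) := ⟨fun {x y} h => by
  by_contra n
  obtain ⟨k, u, hu, rfl⟩ := fact (not_or.1 n).1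
  obtain ⟨l, v, hv, rfl⟩ := fact (not_or.1 n).2
  rw [mul_mul_mul_comm, ← pow_add, (hu.mul hv).mul_left_eq_zero] at h
  exact co_pow_ne _ h⟩

instance : IsDomain (Rg c) := NoZeroDivisors.to_isDomain _

instance : IsPrincipalIdealRing (Rg c) := ⟨fun I => by
  classical
  by_cases h : ∃ k, pr c (co c) ^ k ∈ I
  · refine ⟨_, le_antisymm (fun x hx => ?_) ((Ideal.span_singleton_le_iff_mem I).2 (Nat.find_spec h))⟩
    rcases eq_or_ne x 0 with rfl | n
    · exact zero_mem _
    obtain ⟨k, u, hu, rfl⟩ := fact n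
    obtain ⟨j, rfl⟩ := Nat.exists_eq_add_of_le
      (Nat.find_min' h ((I.mul_unit_mem_iff_mem hu).1 hx))
    exact Ideal.mem_span_singleton.2 (by rw [pow_add, mul_assoc]; exact dvd_mul_right _ _)
  · refine ⟨0, le_antisymm (fun x hx => ?_) ((Ideal.span_singleton_le_iff_mem I).2 (zero_mem _))⟩
    by_contra n
    obtain ⟨k, u, hu, rfl⟩ := fact (fun e : x = 0 => n (by rw [e]; exact zero_mem _))
    exact h ⟨k, (I.mul_unit_mem_iff_mem hu).1 hx⟩⟩

variable {l m n : Type} [Fintype l] [Fintype m] [Fintype n]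

/-- Factorisation of a matrix over a principal ideal domain. -/
theorem pid_fact {R : Type} [CommRing R] [IsDomain R] [IsPrincipalIdealRing R] (G : Matrix m n R) :
    ∃ (r : ℕ) (a : Fin r → R) (A : Matrix m (Fin r) R) (A' : Matrix (Fin r) m R)
      (B : Matrix (Fin r) n R) (B' : Matrix n (Fin r) R),
      (∀ i, a i ≠ 0) ∧ A' * A = 1 ∧ B * B' = 1 ∧ G = A * diagonal a * B := by
  classical
  obtain ⟨r, s⟩ := Submodule.smithNormalForm (Pi.basisFun R m) (LinearMap.range G.mulVecLin)
  choose t ht using fun i => (s.bN i).2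
  refine ⟨r, s.a, of fun x i => s.bM (s.f i) x, of fun i x => s.bM.repr (Pi.single x 1) (s.f i),
    of fun i y => s.bN.repr (G.mulVecLin.rangeRestrict (Pi.single y 1)) i, of fun y i => t i y,
    fun i h => s.bN.ne_zero i (Subtype.ext (by rw [s.snf, h, zero_smul]; rfl)), ?_, ?_, ?_⟩
  · ext i j
    have : ∑ x, s.bM (s.f j) x • s.bM.repr (Pi.single x 1) = s.bM.repr (s.bM (s.f j)) := by
      simp only [← map_smul, ← map_sum]
      congr 1
      ext y
      simp [Pi.single_apply]
    have e := congrArg (fun v => v (s.f i)) this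
    simp only [Finsupp.finsetSum_apply, Finsupp.smul_apply, smul_eq_mul, s.bM.repr_self,
      Finsupp.single_apply, EmbeddingLike.apply_eq_iff_eq] at e
    simp only [mul_apply, of_apply, one_apply, mul_comm (s.bM.repr _ _), e, eq_comm]
  · ext i j
    have : ∑ y, t j y • s.bN.repr (G.mulVecLin.rangeRestrict (Pi.single y 1)) =
        s.bN.repr (s.bN j) := by
      simp only [← map_smul, ← map_sum]
      congr 1
      refine Subtype.ext (Eq.trans ?_ (ht j))
      refine congrArg G.mulVecLin ?_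
      ext y
      simp [Pi.single_apply]
    have e := congrArg (fun v => v i) this
    simp only [Finsupp.finsetSum_apply, Finsupp.smul_apply, smul_eq_mul, s.bN.repr_self,
      Finsupp.single_apply] at e
    simp only [mul_apply, of_apply, one_apply, mul_comm (s.bN.repr _ _), e, eq_comm]
  · ext x y
    have e := congrArg (fun v : LinearMap.range G.mulVecLin => v.1 x)
      (s.bN.sum_repr (G.mulVecLin.rangeRestrict (Pi.single y 1)))
    simp only [Submodule.coe_sum, Submodule.coe_smul, s.snf, Finset.sum_apply, Pi.smul_apply,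
      smul_eq_mul, LinearMap.codRestrict_apply, mulVecLin_apply, mulVec_single_one] at e
    rw [mul_apply]
    simp only [mul_diagonal, of_apply]
    exact e.symm.trans (Finset.sum_congr rfl fun i _ => by ring)

/-- The value of a matrix of analytic functions. -/
def ev (A : Matrix m n (An c)) (z : ℂ) : Matrix m n ℂ := of fun i j => (A i j).1 z

theorem ev_an (A : Matrix m n (An c)) : AnalyticAt ℂ (ev A) c := an_of fun i j => (A i j).2

theorem ev_mul (A : Matrix l m (An c)) (B : Matrix m n (An c)) (z : ℂ) :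
    ev (A * B) z = ev A z * ev B z := by
  ext i j
  simp [ev, mul_apply]

theorem ev_eq {A B : Matrix m n (An c)} (h : A.map (pr c) = B.map (pr c)) :
    ∀ᶠ z in 𝓝 c, ev A z = ev B z := by
  have : ∀ᶠ z in 𝓝 c, ∀ i j, (A i j).1 z = (B i j).1 z :=
    eventually_all.2 fun i => eventually_all.2 fun j => pr_eq.1 (congrFun (congrFun h i) j)
  exact this.mono fun z hz => Matrix.ext hz

theorem lift (A : Matrix m n (Rg c)) : ∃ A' : Matrix m n (An c), A'.map (pr c) = A := by
  choose f hf using fun i j => pr_surj (A i j)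
  exact ⟨of f, Matrix.ext hf⟩

/-- **Local factorisation**: `g = A D B`, `D` diagonal with powers of `z - c` as entries, `A` with a
left inverse, `B` with a right inverse. -/
theorem exists_fact {g : ℂ → Matrix m n ℂ} (hg : AnalyticAt ℂ g c) :
    ∃ (r : ℕ) (k : Fin r → ℕ) (A : ℂ → Matrix m (Fin r) ℂ) (A' : ℂ → Matrix (Fin r) m ℂ)
      (B : ℂ → Matrix (Fin r) n ℂ) (B' : ℂ → Matrix n (Fin r) ℂ),
      AnalyticAt ℂ A c ∧ AnalyticAt ℂ A' c ∧ AnalyticAt ℂ B c ∧ AnalyticAt ℂ B' c ∧
      ∀ᶠ z in 𝓝 c, A' z * A z = 1 ∧ B z * B' z = 1 ∧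
        g z = A z * diagonal (fun i => (z - c) ^ k i) * B z := by
  let G : Matrix m n (An c) := of fun i j => ⟨fun z => g z i j, an_ent hg i j⟩
  obtain ⟨r, a, A, A', B, B', h0, h1, h2, h3⟩ := pid_fact (G.map (pr c))
  choose k u hu e using fun i => fact (h0 i)
  obtain ⟨A1, rfl⟩ := lift A
  obtain ⟨A2, rfl⟩ := lift A'
  obtain ⟨B1, hB1⟩ := lift (diagonal u * B)
  obtain ⟨B2, hB2⟩ := lift (B' * diagonal fun i => ((hu i).unit⁻¹).1)
  have o : ∀ z, ev (1 : Matrix (Fin r) (Fin r) (An c)) z = 1 := fun z => by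
    ext i j
    simp only [ev, of_apply, one_apply]
    split_ifs <;> rfl
  have d : ∀ z, ev (diagonal fun i => co c ^ k i) z = diagonal fun i => (z - c) ^ k i := fun z => by
    ext i j
    simp only [ev, of_apply, diagonal_apply]
    split_ifs <;> rfl
  have o' : (1 : Matrix (Fin r) (Fin r) (An c)).map (pr c) = 1 :=
    Matrix.map_one _ (map_zero _) (map_one _)
  refine ⟨r, k, ev A1, ev A2, ev B1, ev B2, ev_an _, ev_an _, ev_an _, ev_an _, ?_⟩
  filter_upwards [ev_eq (A := A2 * A1) (B := 1) (by rw [Matrix.map_mul, h1, o']),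
    ev_eq (A := B1 * B2) (B := 1) (by
      rw [Matrix.map_mul, hB1, hB2, o', Matrix.mul_assoc, ← Matrix.mul_assoc B, h2, Matrix.one_mul,
        diagonal_mul_diagonal]
      simp),
    ev_eq (A := G) (B := A1 * diagonal (fun i => co c ^ k i) * B1) (by
      rw [Matrix.map_mul, Matrix.map_mul, hB1, h3, diagonal_map (map_zero _), Matrix.mul_assoc,
        Matrix.mul_assoc, ← Matrix.mul_assoc (diagonal _) (diagonal u), diagonal_mul_diagonal]
      simp only [map_pow, ← e])] with z a1 a2 a3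
  rw [ev_mul, o] at a1 a2
  rw [ev_mul, ev_mul, d] at a3
  exact ⟨a1, a2, a3⟩

end Vale.Agent.P275KR
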