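import Vale.Agent.P275KR.Germ

/-!
# Local Smith form, saturated kernels and images
-/

set_option linter.unusedSectionVars false

open scoped Matrix.Norms.Operator Topology
open Filter Set Matrix

noncomputable section

namespace Vale.Agent.P275KR

open Vale.Agent.P281Z.Hm

variable {l m n : Type} [Fintype l] [Fintype m] [Fintype n] {c : ℂ}

theorem eq_of_punct {F : Type*} [TopologicalSpace F] [T2Space F] {f g : ℂ → F}
    (hf : ContinuousAt f c) (hg : ContinuousAt g c) (h : ∀ᶠ z in 𝓝[≠] c, f z = g z) : f c = g c :=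
  tendsto_nhds_unique_of_eventuallyEq (hf.tendsto.mono_left nhdsWithin_le_nhds)
    (hg.tendsto.mono_left nhdsWithin_le_nhds) h

theorem ev_of_punct {p : ℂ → Prop} (h : ∀ᶠ z in 𝓝[≠] c, p z) (h0 : p c) : ∀ᶠ z in 𝓝 c, p z := by
  rw [eventually_nhdsWithin_iff] at h
  exact h.mono fun z hz => if e : z = c then e ▸ h0 else hz e

/-- The diagonal matrix of powers. -/
def dg (c : ℂ) {r : ℕ} (k : Fin r → ℕ) (z : ℂ) : Matrix (Fin r) (Fin r) ℂ :=
  diagonal fun i => (z - c) ^ k i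

theorem dg_an {r : ℕ} (k : Fin r → ℕ) (z : ℂ) : AnalyticAt ℂ (dg c k) z := an_of fun i j => by
  simp only [dg, diagonal_apply]
  split_ifs
  · exact (analyticAt_id.sub analyticAt_const).pow _
  · exact analyticAt_const

theorem dg_det {r : ℕ} (k : Fin r → ℕ) (z : ℂ) : (dg c k z).det = (z - c) ^ ∑ i, k i := by
  rw [dg, det_diagonal, Finset.prod_pow_eq_pow_sum]

theorem dg_unit {r : ℕ} (k : Fin r → ℕ) {z : ℂ} (h : z ≠ c) : IsUnit (dg c k z).det := by
  rw [dg_det]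
  exact (pow_ne_zero _ (sub_ne_zero.2 h)).isUnit

/-- A holomorphic family of projectors splits. -/
theorem idem_split {P : ℂ → Matrix n n ℂ} (hP : AnalyticAt ℂ P c) (h : ∀ᶠ z in 𝓝 c, P z * P z = P z) :
    ∃ (s : ℕ) (S : ℂ → Matrix n (Fin s) ℂ) (S' : ℂ → Matrix (Fin s) n ℂ),
      AnalyticAt ℂ S c ∧ AnalyticAt ℂ S' c ∧ ∀ᶠ z in 𝓝 c, S' z * S z = 1 ∧ S z * S' z = P z := by
  obtain ⟨s, k, A, A', B, B', a1, a2, a3, a4, e⟩ := exists_fact hP
  have a5 : AnalyticAt ℂ (fun z => dg c k z * B z) c := an_mul (dg_an k c) a3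
  have p : ∀ᶠ z in 𝓝[≠] c, dg c k z * B z * A z = 1 := by
    filter_upwards [(e.and h).filter_mono nhdsWithin_le_nhds, self_mem_nhdsWithin] with z hz ne
    obtain ⟨⟨e1, e2, e3⟩, e4⟩ := hz
    have e5 : dg c k z * B z * A z * dg c k z = dg c k z := by
      have := congrArg (fun X => A' z * X * B' z) e4
      simp only [e3, Matrix.mul_assoc, e2, Matrix.mul_one] at this
      simp only [← Matrix.mul_assoc, e1, Matrix.one_mul] at this
      exact this
    rw [← Matrix.mul_nonsing_inv_cancel_right _ (dg c k z * B z * A z) (dg_unit k ne), e5,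
      Matrix.mul_nonsing_inv _ (dg_unit k ne)]
  refine ⟨s, A, fun z => dg c k z * B z, a1, a5, ?_⟩
  filter_upwards [ev_of_punct p (eq_of_punct (an_mul a5 a1).continuousAt continuousAt_const p),
    e] with z a b
  exact ⟨a, by rw [b.2.2, Matrix.mul_assoc]; rfl⟩

/-- `S`, `T` are the two blocks of columns of an invertible matrix, `S'`, `T'` the two blocks of
rows of its inverse. -/
structure Blk [DecidableEq n] {s r : Type} [Fintype s] [Fintype r] [DecidableEq s] [DecidableEq r]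
    (S : Matrix n s ℂ) (T : Matrix n r ℂ) (S' : Matrix s n ℂ) (T' : Matrix r n ℂ) : Prop where
  ss : S' * S = 1
  tt : T' * T = 1
  one : S * S' + T * T' = 1

namespace Blk

variable [DecidableEq n] {s r : Type} [Fintype s] [Fintype r] [DecidableEq s] [DecidableEq r]
  {S : Matrix n s ℂ} {T : Matrix n r ℂ} {S' : Matrix s n ℂ} {T' : Matrix r n ℂ}

theorem symm (h : Blk S T S' T') : Blk T S T' S' := ⟨h.tt, h.ss, (add_comm _ _).trans h.one⟩

theorem ts (h : Blk S T S' T') : T' * S = 0 := by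
  have a : T' * (S * S' + T * T') * S = T' * S := by rw [h.one, Matrix.mul_one]
  rw [Matrix.mul_add, Matrix.add_mul, ← Matrix.mul_assoc T' T, h.tt, Matrix.one_mul,
    Matrix.mul_assoc, Matrix.mul_assoc, h.ss, Matrix.mul_one] at a
  exact add_eq_left.1 a

theorem st (h : Blk S T S' T') : S' * T = 0 := h.symm.ts

theorem card (h : Blk S T S' T') : Fintype.card s + Fintype.card r = Fintype.card n := by
  have a := congrArg trace h.one
  rw [trace_add, trace_mul_comm, trace_mul_comm T, h.ss, h.tt, trace_one, trace_one, trace_one] at a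
  exact_mod_cast a

theorem cols_rows (h : Blk S T S' T') : fromCols S T * fromRows S' T' = 1 := by
  rw [fromCols_mul_fromRows, h.one]

theorem rows_cols (h : Blk S T S' T') : fromRows S' T' * fromCols S T = 1 := by
  rw [fromRows_mul_fromCols, h.ss, h.tt, h.st, h.ts, fromBlocks_one]

theorem ker_iff (h : Blk S T S' T') (v : n → ℂ) : T' *ᵥ v = 0 ↔ ∃ u, S *ᵥ u = v := by
  refine ⟨fun e => ⟨S' *ᵥ v, ?_⟩, ?_⟩
  · have a := congrArg (· *ᵥ v) h.one
    simp only [add_mulVec, ← mulVec_mulVec, e, mulVec_zero, add_zero, one_mulVec] at a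
    exact a
  · rintro ⟨u, rfl⟩
    rw [mulVec_mulVec, h.ts, zero_mulVec]

theorem ker_eq (h : Blk S T S' T') : LinearMap.ker T'.mulVecLin = LinearMap.range S.mulVecLin :=
  Submodule.ext h.ker_iff

theorem transpose (h : Blk S T S' T') : Blk S'ᵀ T'ᵀ Sᵀ Tᵀ :=
  ⟨by rw [← transpose_mul, h.ss, transpose_one], by rw [← transpose_mul, h.tt, transpose_one],
    by rw [← transpose_mul, ← transpose_mul, ← transpose_add, h.one, transpose_one]⟩

end Blk

variable [DecidableEq m] [DecidableEq n]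

/-- A holomorphic matrix with a holomorphic left inverse is a block of a holomorphic frame. -/
theorem exists_blk {r : Type} [Fintype r] [DecidableEq r] {T : ℂ → Matrix n r ℂ}
    {T' : ℂ → Matrix r n ℂ} (hT : AnalyticAt ℂ T c) (hT' : AnalyticAt ℂ T' c)
    (h : ∀ᶠ z in 𝓝 c, T' z * T z = 1) :
    ∃ (s : ℕ) (S : ℂ → Matrix n (Fin s) ℂ) (S' : ℂ → Matrix (Fin s) n ℂ),
      AnalyticAt ℂ S c ∧ AnalyticAt ℂ S' c ∧ ∀ᶠ z in 𝓝 c, Blk (S z) (T z) (S' z) (T' z) := by
  obtain ⟨s, S, S', a1, a2, e⟩ := idem_split (P := fun z => 1 - T z * T' z)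
    (analyticAt_const.sub (an_mul hT hT')) (h.mono fun z hz => by
      rw [Matrix.sub_mul, Matrix.one_mul, Matrix.mul_sub, Matrix.mul_one, Matrix.mul_assoc,
        ← Matrix.mul_assoc (T' z), hz, Matrix.one_mul, sub_self, sub_zero])
  refine ⟨s, S, S', a1, a2, ?_⟩
  filter_upwards [e, h] with z a b
  exact ⟨a.1, b, by rw [a.2, sub_add_cancel]⟩

/-- The local Smith form of `g` at `c`: frames (`S`, `T`) of the source and (`A`, `C`) of the
target with `g = A D T'`. -/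
structure Smith (g : ℂ → Matrix m n ℂ) (c : ℂ) (r s t : ℕ) where
  k : Fin r → ℕ
  S : ℂ → Matrix n (Fin s) ℂ
  T : ℂ → Matrix n (Fin r) ℂ
  S' : ℂ → Matrix (Fin s) n ℂ
  T' : ℂ → Matrix (Fin r) n ℂ
  A : ℂ → Matrix m (Fin r) ℂ
  C : ℂ → Matrix m (Fin t) ℂ
  A' : ℂ → Matrix (Fin r) m ℂ
  C' : ℂ → Matrix (Fin t) m ℂ
  aS : AnalyticAt ℂ S c
  aT : AnalyticAt ℂ T c
  aS' : AnalyticAt ℂ S' c
  aT' : AnalyticAt ℂ T' c
  aA : AnalyticAt ℂ A c
  aC : AnalyticAt ℂ C c
  aA' : AnalyticAt ℂ A' c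
  aC' : AnalyticAt ℂ C' c
  src : ∀ᶠ z in 𝓝 c, Blk (S z) (T z) (S' z) (T' z)
  tgt : ∀ᶠ z in 𝓝 c, Blk (A z) (C z) (A' z) (C' z)
  eq : ∀ᶠ z in 𝓝 c, g z = A z * dg c k z * T' z

/-- **Local Smith form.** -/
theorem exists_smith {g : ℂ → Matrix m n ℂ} (hg : AnalyticAt ℂ g c) :
    ∃ r s t, Nonempty (Smith g c r s t) := by
  obtain ⟨r, k, A, A', B, B', a1, a2, a3, a4, e⟩ := exists_fact hg
  obtain ⟨s, S, S', b1, b2, e1⟩ := exists_blk a4 a3 (e.mono fun z h => h.2.1)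
  obtain ⟨t, C, C', c1, c2, e2⟩ := exists_blk a1 a2 (e.mono fun z h => h.1)
  exact ⟨r, s, t, ⟨⟨k, S, B', S', B, A, C, A', C', b1, a4, b2, a3, a1, c1, a2, c2, e1,
    e2.mono fun z h => h.symm, e.mono fun z h => h.2.2⟩⟩⟩

namespace Smith

variable {g : ℂ → Matrix m n ℂ} {r s t : ℕ} (F : Smith g c r s t)

include F in
theorem card_src : s + r = Fintype.card n := by simpa using F.src.self_of_nhds.card

include F in
theorem card_tgt : r + t = Fintype.card m := by simpa using F.tgt.self_of_nhds.card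

theorem mul_S : ∀ᶠ z in 𝓝 c, g z * F.S z = 0 := by
  filter_upwards [F.src, F.eq] with z a b
  rw [b, Matrix.mul_assoc, a.ts, Matrix.mul_zero]

theorem mul_T : ∀ᶠ z in 𝓝 c, g z * F.T z = F.A z * dg c F.k z := by
  filter_upwards [F.src, F.eq] with z a b
  rw [b, Matrix.mul_assoc, a.tt, Matrix.mul_one]

theorem C_mul : ∀ᶠ z in 𝓝 c, F.C' z * g z = 0 := by
  filter_upwards [F.tgt, F.eq] with z a b
  rw [b, Matrix.mul_assoc, ← Matrix.mul_assoc, a.ts, Matrix.zero_mul]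

theorem ker_punct : ∀ᶠ z in 𝓝[≠] c,
    LinearMap.ker (g z).mulVecLin = LinearMap.range (F.S z).mulVecLin := by
  filter_upwards [(F.src.and (F.tgt.and F.eq)).filter_mono nhdsWithin_le_nhds,
    self_mem_nhdsWithin] with z ⟨a, b, e⟩ ne
  rw [← a.ker_eq]
  ext v
  simp only [LinearMap.mem_ker, mulVecLin_apply]
  refine ⟨fun h => ?_, fun h => by rw [e, ← mulVec_mulVec, h, mulVec_zero]⟩
  have : F.T' z = (dg c F.k z)⁻¹ * F.A' z * g z := by
    rw [e, Matrix.mul_assoc, Matrix.mul_assoc, ← Matrix.mul_assoc (F.A' z), b.ss, Matrix.one_mul,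
      Matrix.nonsing_inv_mul_cancel_left _ _ (dg_unit _ ne)]
  rw [this, ← mulVec_mulVec, h, mulVec_zero]

theorem range_punct : ∀ᶠ z in 𝓝[≠] c,
    LinearMap.range (g z).mulVecLin = LinearMap.range (F.A z).mulVecLin := by
  filter_upwards [(F.mul_T.and F.eq).filter_mono nhdsWithin_le_nhds,
    self_mem_nhdsWithin] with z ⟨a, e⟩ ne
  refine le_antisymm ?_ ?_
  · rintro _ ⟨v, rfl⟩
    exact ⟨(dg c F.k z * F.T' z) *ᵥ v, by simp only [mulVecLin_apply, mulVec_mulVec, e,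
      Matrix.mul_assoc]⟩
  · rintro _ ⟨v, rfl⟩
    exact ⟨(F.T z * (dg c F.k z)⁻¹) *ᵥ v, by
      simp only [mulVecLin_apply, mulVec_mulVec, ← Matrix.mul_assoc, a,
        Matrix.mul_nonsing_inv_cancel_right _ _ (dg_unit _ ne)]⟩

include F in
theorem rank_punct : ∀ᶠ z in 𝓝[≠] c, (g z).rank = r := by
  filter_upwards [F.range_punct, F.tgt.filter_mono nhdsWithin_le_nhds] with z a b
  have h : (F.A z).rank = r := le_antisymm ((rank_le_card_width _).trans_eq (Fintype.card_fin r)) (by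
    have := rank_mul_le_right (F.A' z) (F.A z)
    rwa [b.ss, rank_one, Fintype.card_fin] at this)
  rw [← h, Matrix.rank, a, Matrix.rank]

end Smith

/-- The generic rank is constant on a connected open set. -/
theorem generic_rank {g : ℂ → Matrix m n ℂ} {U : Set ℂ} (hU : IsOpen U) (hc : IsPreconnected U)
    (hg : AnalyticOnNhd ℂ g U) : ∃ r, ∀ c ∈ U, ∀ᶠ z in 𝓝[≠] c, (g z).rank = r := by
  have h : ∀ c, ∃ r, c ∈ U → ∀ᶠ z in 𝓝[≠] c, (g z).rank = r := fun c => by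
    by_cases hc : c ∈ U
    · obtain ⟨r, s, t, ⟨F⟩⟩ := exists_smith (hg c hc)
      exact ⟨r, fun _ => F.rank_punct⟩
    · exact ⟨0, fun h => absurd h hc⟩
  choose ρ hρ using h
  have l : ∀ c ∈ U, ∀ᶠ w in 𝓝 c, ρ w = ρ c := fun c hc => by
    refine ev_of_punct ?_ rfl
    filter_upwards [eventually_eventually_nhdsWithin.2 (hρ c hc), self_mem_nhdsWithin,
      mem_nhdsWithin_of_mem_nhds (hU.mem_nhds hc)] with w a b d
    rw [nhdsWithin_eq_nhds.2 (isOpen_compl_singleton.mem_nhds b)] at a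
    obtain ⟨z, e1, e2⟩ := ((hρ w d).and (a.filter_mono nhdsWithin_le_nhds)).exists
    exact e1.symm.trans e2
  rcases U.eq_empty_or_nonempty with rfl | ⟨x, hx⟩
  · exact ⟨0, by simp⟩
  refine ⟨ρ x, fun c hc' => ?_⟩
  rw [hc.constant (f := ρ) (fun w hw => (continuousAt_const.congr
    (EventuallyEq.symm (l w hw))).continuousWithinAt) hx hc']
  exact hρ c hc'

/-- The saturation of a family of subspaces. -/
def sat (V : ℂ → Submodule ℂ (n → ℂ)) (c : ℂ) : Submodule ℂ (n → ℂ) where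
  carrier := {v | ∃ u : ℂ → n → ℂ, ContinuousAt u c ∧ u c = v ∧ ∀ᶠ z in 𝓝[≠] c, u z ∈ V z}
  add_mem' := by
    rintro _ _ ⟨u, a1, rfl, a2⟩ ⟨w, b1, rfl, b2⟩
    exact ⟨u + w, a1.add b1, rfl, (a2.and b2).mono fun z h => add_mem h.1 h.2⟩
  zero_mem' := ⟨0, continuousAt_const, rfl, Eventually.of_forall fun z => zero_mem _⟩
  smul_mem' := by
    rintro a _ ⟨u, a1, rfl, a2⟩
    exact ⟨a • u, a1.const_smul a, rfl, a2.mono fun z h => Submodule.smul_mem _ a h⟩

theorem ca_mulVec {S : ℂ → Matrix m n ℂ} {u : ℂ → n → ℂ} (hS : ContinuousAt S c)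
    (hu : ContinuousAt u c) : ContinuousAt (fun z => S z *ᵥ u z) c :=
  (continuous_fst.matrix_mulVec continuous_snd).continuousAt.comp (hS.prodMk hu)

theorem sat_eq {V : ℂ → Submodule ℂ (n → ℂ)} {S : ℂ → Matrix n m ℂ} {S' : ℂ → Matrix m n ℂ}
    (hS : ContinuousAt S c) (hS' : ContinuousAt S' c) (h : ∀ᶠ z in 𝓝[≠] c, S' z * S z = 1)
    (hV : ∀ᶠ z in 𝓝[≠] c, V z = LinearMap.range (S z).mulVecLin) :
    sat V c = LinearMap.range (S c).mulVecLin := by
  refine le_antisymm ?_ ?_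
  · rintro _ ⟨u, a1, rfl, a2⟩
    refine ⟨S' c *ᵥ u c, eq_of_punct (ca_mulVec hS (ca_mulVec hS' a1)) a1 ?_⟩
    filter_upwards [h, hV, a2] with z e1 e2 e3
    obtain ⟨w, hw⟩ := e2 ▸ e3
    rw [← hw, mulVecLin_apply, mulVec_mulVec _ (S' z), e1, one_mulVec]
  · rintro _ ⟨w, rfl⟩
    exact ⟨fun z => S z *ᵥ w, ca_mulVec hS continuousAt_const, rfl,
      hV.mono fun z e => e ▸ ⟨w, rfl⟩⟩

theorem sat_eq_near {V : ℂ → Submodule ℂ (n → ℂ)} {S : ℂ → Matrix n m ℂ} {S' : ℂ → Matrix m n ℂ}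
    (hS : AnalyticAt ℂ S c) (hS' : AnalyticAt ℂ S' c) (h : ∀ᶠ z in 𝓝 c, S' z * S z = 1)
    (hV : ∀ᶠ z in 𝓝[≠] c, V z = LinearMap.range (S z).mulVecLin) :
    ∀ᶠ z in 𝓝 c, sat V z = LinearMap.range (S z).mulVecLin := by
  refine ev_of_punct ?_ (sat_eq hS.continuousAt hS'.continuousAt
    (h.filter_mono nhdsWithin_le_nhds) hV)
  filter_upwards [eventually_eventually_nhdsWithin.2 hV, self_mem_nhdsWithin,
    (hS.eventually_analyticAt.and (hS'.eventually_analyticAt.and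
      h.eventually_nhds)).filter_mono nhdsWithin_le_nhds] with w a b d
  rw [nhdsWithin_eq_nhds.2 (isOpen_compl_singleton.mem_nhds b)] at a
  exact sat_eq d.1.continuousAt d.2.1.continuousAt (d.2.2.filter_mono nhdsWithin_le_nhds)
    (a.filter_mono nhdsWithin_le_nhds)

/-- The saturated kernel is spanned by the columns of `S`. -/
theorem Smith.sat_ker {g : ℂ → Matrix m n ℂ} {r s t : ℕ} (F : Smith g c r s t) : ∀ᶠ z in 𝓝 c,
    sat (fun w => LinearMap.ker (g w).mulVecLin) z = LinearMap.range (F.S z).mulVecLin :=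
  sat_eq_near F.aS F.aS' (F.src.mono fun _ h => h.ss) F.ker_punct

/-- The saturated image is spanned by the columns of `A`. -/
theorem Smith.sat_range {g : ℂ → Matrix m n ℂ} {r s t : ℕ} (F : Smith g c r s t) : ∀ᶠ z in 𝓝 c,
    sat (fun w => LinearMap.range (g w).mulVecLin) z = LinearMap.range (F.A z).mulVecLin :=
  sat_eq_near F.aA F.aA' (F.tgt.mono fun _ h => h.ss) F.range_punct

end Vale.Agent.P275KR
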