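import Vale.Agent.P275KR.Gm
import Vale.Agent.P275GC.Deg
import Vale.Agent.P275MB.Res
import Vale.Agent.P275NU.Defs
import Mathlib.Analysis.Complex.RemovableSingularity

/-!
# Invariant subbundles of connections have the slope of the bundle
-/

set_option linter.unusedSectionVars false

open scoped Matrix.Norms.Operator Topology ContDiff
open Filter Set Matrix Metric Complex

noncomputable section

namespace Vale.Agent.P275KR

open Vale.Agent.P281Z.Hm Vale.Agent.P275GC Vale.Agent.P275GC.At Vale.Agent.P275MO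
open Vale.Agent.P275NA (Fm Cy Mn Mr FrAt degS cvS dz db lp Sub)

variable {C : Type} [TopologicalSpace C] [T2Space C] {A : At C} {n k : ℕ} {l : Cy A ℂ}
  {z : Dat C A.N n} {S : Fm A (Sp n)} {i j : Fin A.N} {w : ℂ} {t t' : ℂ → Mr n k}
  {c c' : ℂ → Mn k}

theorem off_ev' (x : C) (h : w ∈ ball (0 : ℂ) A.R) : ∀ᶠ y in 𝓝[≠] w, y ∈ off A x i := by
  by_cases e : (A.e i).symm w = x
  · subst e
    simpa only [rinv h] using P275MB.off_ev (map_tgt (i := i) h)
  · exact nhdsWithin_le_nhds ((P275MB.off_open x i).mem_nhds ⟨h, e⟩)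

theorem an_fill (g : Good A l z) (h : w ∈ ball (0 : ℂ) A.R) (e : (A.e i).symm w = z.x) :
    AnalyticAt ℂ (Function.update (fun y => (y - w) • z.a i y) w (z.σ i * z.R * (z.σ i)⁻¹)) w := by
  have p := g.pole i (e ▸ map_tgt h)
  rw [← e, rinv h] at p
  refine analyticAt_of_differentiable_on_punctured_nhds_of_continuousAt ?_
    (continuousAt_update_same.2 p)
  filter_upwards [off_ev' z.x h, self_mem_nhdsWithin] with y a b
  exact ((differentiableAt_id.sub_const w).smul ((g.hol i).differentiableAt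
    ((P275MB.off_open z.x i).mem_nhds a))).congr_of_eventuallyEq
      (eventually_of_mem (isOpen_ne.mem_nhds b) fun _ x => Function.update_of_ne x _ _)

theorem an_off (g : Good A l z) (h : w ∈ off A z.x i) : AnalyticAt ℂ (z.a i) w :=
  (g.hol i).analyticAt ((P275MB.off_open z.x i).mem_nhds h)

/-- without residue there is no pole -/
theorem ex_fill (g : Good A l z) (hR : z.R = 0) (i : Fin A.N) (h : w ∈ ball (0 : ℂ) A.R) :
    ∃ b : ℂ → Mn n, AnalyticAt ℂ b w ∧ ∀ᶠ y in 𝓝 w, y ∈ off A z.x i → b y = z.a i y := by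
  by_cases e : (A.e i).symm w = z.x
  swap
  · exact ⟨_, an_off g ⟨h, e⟩, Eventually.of_forall fun _ _ => rfl⟩
  obtain ⟨q, hq⟩ := an_fill g h e
  refine ⟨_, hq.has_fpower_series_dslope_fslope.analyticAt, Eventually.of_forall fun y b => ?_⟩
  have d : y ≠ w := fun d => b.2 (d ▸ e)
  rw [dslope_of_ne _ d, slope_def_module, Function.update_self, Function.update_of_ne d, hR,
    mul_zero, zero_mul, sub_zero, inv_smul_smul₀ (sub_ne_zero.2 d)]

/-- `c` is the matrix of the connection in the frame `t` of `S` -/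
structure Rl (z : Dat C A.N n) (S : Fm A (Sp n)) (i : Fin A.N) (t : ℂ → Mr n k) (c : ℂ → Mn k)
    (w : ℂ) : Prop where
  fr : FrAt (S i) t w
  an : AnalyticAt ℂ c w
  eq : ∀ᶠ y in 𝓝 w, y ∈ off A z.x i → t y * c y = z.lam • dz t y + z.a i y * t y

theorem Rl.ev (h : Rl z S i t c w) : ∀ᶠ y in 𝓝 w, Rl z S i t c y :=
  ((fr_ev h.fr).and (h.an.eventually_analyticAt.and h.eq.eventually_nhds)).mono fun _ a =>
    ⟨a.1, a.2.1, a.2.2⟩

theorem inv_rg (hI : InvC A z S) (o : w ∈ off A z.x i) (r : FrAt (S i) t w) :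
    rg (z.lam • dz t w + z.a i w * t w) ≤ rg (t w) := by
  rintro _ ⟨v, rfl⟩
  have := hI i w o (fun x => t x *ᵥ v) (an_mulVec r.an analyticAt_const)
    (r.rg.mono fun x e => e ▸ ⟨v, rfl⟩)
  have e : deriv (fun x => t x *ᵥ v) w = dz t w *ᵥ v :=
    (dz_hol (an_mulVec r.an analyticAt_const).differentiableAt).symm.trans
      ((wd_mulVec (P275HK.hol_df r.an) (differentiableAt_const v) 1).trans (by simp))
  rwa [e, ← r.rg.self_of_nhds, mulVec_mulVec, ← smul_mulVec, ← add_mulVec] at this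

theorem ex_Rl (hS : Sub A z.g k S) (hI : InvC A z S) (h : w ∈ ball (0 : ℂ) A.R) {f : ℂ → Mn n}
    (c : AnalyticAt ℂ f w) (d : ∀ᶠ y in 𝓝 w, y ∈ off A z.x i → f y = z.a i y) :
    ∃ (t : ℂ → Mr n k) (c : ℂ → Mn k), Rl z S i t c w := by
  obtain ⟨t, ht⟩ := hS.fr i w h
  obtain ⟨L, a, b⟩ := an_linv ht.an ht.inj
  refine ⟨t, fun y => L y * (z.lam • dz t y + f y * t y), ht,
    an_mul a (((P275HK.hol_dz ht.an).const_smul (c := z.lam)).add (an_mul c ht.an)), ?_⟩
  filter_upwards [b, d, fr_ev ht] with y p q r o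
  rw [q o]
  exact eq_mul_of_le p (inv_rg hI o r)

/-- the potential -/
def pt (z : Dat C A.N n) (l : Cy A ℂ) (i : Fin A.N) (t : ℂ → Mr n k) (y : ℂ) : ℝ :=
  n * Real.log (Gd (A.mtM z.g i y) (t y)) - k * Real.log (A.mt l i y)

/-- the form -/
def om (z : Dat C A.N n) (l : Cy A ℂ) (i : Fin A.N) (t : ℂ → Mr n k) (c : ℂ → Mn k) (y : ℂ) : ℂ :=
  n * (c y).trace - z.lam * dz (fun x => (pt z l i t x : ℂ)) y

theorem cc_l (g : Good A l z) : A.Cc l where
  hol i j := (g.cc.det.hol i j).congr fun y a => (g.det i j y a).symm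
  one i y a := (g.det i i y (O_self a)).symm.trans (g.cc.det.one i y a)
  mul i j m y a b := by
    rw [← g.det i m y b, ← g.det i j y a, ← g.det j m _ (tr_O a b)]
    exact g.cc.det.mul i j m y a b

theorem cd_lG (g : Good A l z) (h : w ∈ ball (0 : ℂ) A.R) (ht : FrAt (S i) t w) :
    ContDiffAt ℝ ∞ (fun y => Real.log (Gd (A.mtM z.g i y) (t y))) w :=
  (cd_Gd (g.cc.mtM.sm.at h i) ht.an).log (Gd_pos (g.cc.mtM.pos i w h) ht.inj).ne'

theorem cd_pt (g : Good A l z) (h : w ∈ ball (0 : ℂ) A.R) (ht : FrAt (S i) t w) :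
    ContDiffAt ℝ ∞ (pt z l i t) w :=
  (contDiffAt_const.mul (cd_lG g h ht)).sub (contDiffAt_const.mul ((cc_l g).mt.log.at h i))

theorem cd_om (g : Good A l z) (h : w ∈ ball (0 : ℂ) A.R) (ht : FrAt (S i) t w)
    (hc : AnalyticAt ℂ c w) : ContDiffAt ℝ 1 (om z l i t c) w :=
  (contDiffAt_const.mul (cd_an (an_trace hc))).sub (contDiffAt_const.mul
    (cd_dz (P275HK.cd_ofReal (cd_pt g h ht)) (by rw [one_add_one_eq_two]; exact two_le)))

theorem tr_alg {T T' D : Mr n k} {L : Mr k n} {G G' a a' : Mn n} {Q Q' c c' : Mn k} {d κ μ : ℂ}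
    (b : L * (G * T') = 1) (e : T = G * T' * Q) (dQ : Q.det ≠ 0)
    (e1 : T * c = μ • ((G' * T' + G * d • D) * Q + G * T' * Q') + a * T)
    (e2 : T' * c' = μ • D + a' * T') (e3 : a * G + μ • G' = d • (G * a') + κ • G) :
    c.trace = d * c'.trace + κ * k + μ * (Q⁻¹ * Q').trace := by
  have e5 : G * T' * (Q * c) = G * T' * ((d • c' + κ • 1) * Q + μ • Q') := by
    rw [← Matrix.mul_assoc _ Q, ← e, e1, e]
    have a2 := congrArg (fun X => d • (G * X * Q)) e2
    have a3 := congrArg (· * T' * Q) e3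
    simp only [Matrix.mul_add, Matrix.add_mul, smul_add, Matrix.mul_smul, Matrix.smul_mul,
      Matrix.mul_assoc, Matrix.one_mul, smul_comm μ d] at a2 a3 ⊢
    linear_combination (norm := module) a3 - a2
  have := congrArg (fun X => trace (Q⁻¹ * (L * X))) e5
  simp only [← Matrix.mul_assoc L (_ * _), b, Matrix.one_mul, Matrix.mul_add Q⁻¹ (_ * _),
    nonsing_inv_mul_cancel_left _ _ dQ.isUnit, trace_add] at this
  rw [this, trace_mul_comm _ (_ * _), mul_nonsing_inv_cancel_right _ _ dQ.isUnit]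
  simp

theorem dz_three {u v : ℂ → ℝ} {τ p q : ℂ → ℂ} {a b : ℂ} (hv : ContDiffAt ℝ ∞ v (τ w))
    (hτ : DifferentiableAt ℂ τ w) (hp : AnalyticAt ℂ p w) (p0 : p w ≠ 0) (hq : AnalyticAt ℂ q w)
    (q0 : q w ≠ 0) (e : ∀ᶠ x in 𝓝 w, (u x : ℂ) = v (τ x) +
      (a • (Real.log (normSq (p x)) : ℂ) + b • (Real.log (normSq (q x)) : ℂ))) :
    dz (fun x => (u x : ℂ)) w = deriv τ w * dz (fun x => (v x : ℂ)) (τ w) +
      (a * (deriv p w / p w) + b * (deriv q w / q w)) := by
  have f1 := (P275HK.cd_ofReal hv).differentiableAt (by simp)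
  have f2 := (P275HK.cd_ofReal (cd_log_nsq (k := 1) hp p0)).differentiableAt one_ne_zero
  have f3 := (P275HK.cd_ofReal (cd_log_nsq (k := 1) hq q0)).differentiableAt one_ne_zero
  have f4 : DifferentiableAt ℝ (fun x => (v (τ x) : ℂ)) w := f1.comp w (hτ.restrictScalars ℝ)
  have f5 := f2.fun_const_smul a
  have f6 := f3.fun_const_smul b
  rw [← dz_log_nsq hp p0, ← dz_log_nsq hq q0, ← smul_eq_mul, ← dz_comp f1 hτ, dz, wd_congr e,
    wd_add f4 (f5.fun_add f6), wd_add f5 f6, wd_const_smul _ f2, wd_const_smul _ f3]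
  rfl

theorem om_tr0 (g : Good A l z) (hn : 0 < n) (hS : Sub A z.g k S) (h : w ∈ A.O i j)
    (hx : (A.e i).symm w ≠ z.x) (r : Rl z S i t c w) (r' : Rl z S j t' c' (A.tr i j w)) :
    om z l i t c w = A.d i j w * om z l j t' c' (A.tr i j w) := by
  have s := P275DG.fr_tr g.cc hS h r'.fr
  obtain ⟨L, a, b⟩ := an_linv s.an s.inj
  obtain ⟨Q, aQ, e⟩ : ∃ Q : ℂ → Mn k, AnalyticAt ℂ Q w ∧
      ∀ᶠ y in 𝓝 w, t y = z.g i j y * t' (A.tr i j y) * Q y := ⟨_, an_mul a r.fr.an, by
    filter_upwards [b, r.fr.rg, s.rg] with y p q q' using (eq_mul_of_le p (q.trans q'.symm).le).symm⟩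
  have dQ := P275DG.det_fac r.fr.inj e.self_of_nhds
  have aT : AnalyticAt ℂ (fun y => t' (A.tr i j y)) w := r'.fr.an.comp (an_tr h)
  have d0 : wd 1 (z.g i j) w = deriv (z.g i j) w := dz_hol (g.cc.an h).differentiableAt
  have d1 : wd 1 Q w = deriv Q w := dz_hol aQ.differentiableAt
  have d2 : wd 1 (fun y => t' (A.tr i j y)) w = A.d i j w • dz t' (A.tr i j w) :=
    dz_comp (P275HK.hol_df r'.fr.an) (df_tr h)
  have d : dz t w = _ := (wd_congr e 1).trans (wd_mul (P275HK.hol_df s.an) (P275HK.hol_df aQ) 1)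
  rw [wd_mul (P275HK.hol_df (g.cc.an h)) (P275HK.hol_df aT), d0, d1, d2] at d
  have e6 := tr_alg b.self_of_nhds e.self_of_nhds dQ (d ▸ r.eq.self_of_nhds ⟨h.1, hx⟩)
    (r'.eq.self_of_nhds (P275MB.off_tr h hx)) (P275MB.Good.law' g h hx)
  have hl := cc_l g
  have e8 := dz_three (u := pt z l i t) (a := n) (b := k) (cd_pt g (tr_ball h) r'.fr) (df_tr h)
    (an_det aQ) dQ (hl.an h) (hl.ne h) (by
      filter_upwards [e, O_nhds h, (an_det aQ).continuousAt.eventually_ne dQ, fr_ev s]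
        with y p q u v
      simp only [pt]
      rw [p, Gd_mul, hl.mt.tr i j y q, g.cc.mtM.tr i j y q, ← Gd_tr,
        Real.log_mul (normSq_pos.2 u).ne' (Gd_pos (g.cc.mtM.pos i y q.1) v.inj).ne',
        Real.log_mul (normSq_pos.2 (hl.ne q)).ne' (hl.mt.pos i y q.1).ne']
      push_cast
      simp only [smul_eq_mul]
      ring)
  have n0 := mul_inv_cancel_left₀ (a := (n : ℂ)) (mod_cast hn.ne')
    (z.lam * (deriv (l i j) w / l i j w))
  rw [om, om, e6, e8, P275MB.deriv_det aQ dQ, mul_div_cancel_left₀ _ dQ, At.d]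
  linear_combination (k : ℂ) * n0

theorem om_tr (g : Good A l z) (hn : 0 < n) (hS : Sub A z.g k S) (h : w ∈ A.O i j)
    (r : Rl z S i t c w) (r' : Rl z S j t' c' (A.tr i j w)) :
    om z l i t c w = A.d i j w * om z l j t' c' (A.tr i j w) := by
  refine tendsto_nhds_unique_of_eventuallyEq (l := 𝓝[≠] w)
    ((cd_om g h.1 r.fr r.an).continuousAt.tendsto.mono_left nhdsWithin_le_nhds)
    (((an_d h).continuousAt.mul ((cd_om g (tr_ball h) r'.fr r'.an).continuousAt.comp
      (an_tr h).continuousAt)).tendsto.mono_left nhdsWithin_le_nhds) ?_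
  filter_upwards [off_ev' z.x h.1, nhdsWithin_le_nhds (r.ev.and
    (((an_tr h).continuousAt.eventually r'.ev).and (O_nhds h)))] with y a b
  exact om_tr0 g hn hS b.2.2 a.2 b.1 b.2.1

theorem db_om (g : Good A l z) (h : w ∈ ball (0 : ℂ) A.R) (ht : FrAt (S i) t w)
    (hc : AnalyticAt ℂ c w) : db (om z l i t c) w =
      z.lam * ((n * cvS A k (A.mtM z.g) S i w - k * A.cv (A.mt l) i w : ℝ) : ℂ) := by
  have a := (cd_pt g h ht).of_le two_le
  have b := P275HK.df_dz (P275HK.cd_ofReal a)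
  have e := analyticAt_const (v := (n : ℂ)).mul (an_trace hc)
  have f := (cd_lG g h ht).of_le two_le
  have f' := ((cc_l g).mt.log.at h i).of_le two_le
  refine (wb_sub (P275HK.hol_df e) (b.const_mul _) 1).trans ?_
  rw [wb_hol e.differentiableAt, zero_sub]
  refine (congrArg _ ((wb_const_smul _ b 1).trans (congrArg _ (lp_eq a)))).trans ?_
  rw [cvS_Gd g.cc.mtM h ht.an ht.inj ht.rg (Fintype.card_fin k), cv_eq,
    show lp (pt z l i t) w = _ from lp_sub (contDiffAt_const.mul f) (contDiffAt_const.mul f'),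
    lp_cmul _ f, lp_cmul _ f', smul_eq_mul]
  push_cast
  ring

/-- **NOI** -/
theorem noi (A : At C) : P275NU.NOI A := fun n l z k S g h0 hR hS hI => by
  have hl := cc_l g
  rcases Nat.eq_zero_or_pos n with rfl | hn
  · rw [deg_congr hl A.cc_one fun i j y a => (g.det i j y a).symm.trans det_isEmpty, deg_one,
      mul_zero, Nat.cast_zero, zero_mul]
  choose! t c r using fun i w (h : w ∈ ball (0 : ℂ) A.R) =>
    (ex_fill g hR i h).elim fun _ a => ex_Rl hS hI h a.1 a.2
  have e : ∀ i, ∀ w ∈ ball (0 : ℂ) A.R,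
      (fun y => om z l i (t i y) (c i y) y) =ᶠ[𝓝 w] om z l i (t i w) (c i w) := fun i w h => by
    filter_upwards [(r i w h).ev, isOpen_ball.mem_nhds h] with y a b
    rw [om_tr g hn hS (O_self b) (r i y b) ((tr_self b).symm ▸ a), A.cc_d.one i y b, tr_self b,
      one_mul]
  have s := F10.int_db (A := A) (u := fun i y => om z l i (t i y) (c i y) y)
    (fun i j w h => om_tr g hn hS h (r i w h.1) (r j _ (tr_ball h)))
    fun i w h => ((cd_om g h (r i w h).fr (r i w h).an).congr_of_eventuallyEq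
      (e i w h)).contDiffWithinAt
  have c1 : A.Ct fun i w => n * cvS A k (A.mtM z.g) S i w := fun i =>
    continuousOn_const.mul ((P275DG.sm_cvS g.cc.mtM hS).ct i)
  have c2 : A.Ct fun i w => k * A.cv (A.mt l) i w := fun i =>
    continuousOn_const.mul ((hl.mt.of_le two_le).ct_cv i)
  rw [At.int_congr' fun i w h => (wb_congr (e i w h) 1).trans
    (db_om g h (r i w h).fr (r i w h).an), int_cmul,
    int_ofReal, int_sub c1.in c2.in, int_mul, int_mul, mul_eq_zero, ofReal_eq_zero,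
    sub_eq_zero] at s
  rw [degS, deg, mul_left_comm, s.resolve_left h0, mul_left_comm]

end Vale.Agent.P275KR
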